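import Vale.Agent.P268.T.H963.Scale

/-!
# P268, topological half, block P0: the local scale coordinates are bijective
-/

set_option linter.unusedSectionVars false

namespace Vale.Agent.P268.T

open Set Filter Topology Vale.Agent.P268.Z

/-- Monotonicity of `Sh` and strict monotonicity of `s / Sh s` in the external scale. -/
theorem Sh_mono_aux {lam : ℝ} (hlam : 0 < lam) {c : List ℕ} (hc : ∀ a ∈ c, 2 ≤ a) (q : Sp c) :
    (∀ s s' : ℝ, 0 ≤ s → s ≤ s' → Sh lam c s q ≤ Sh lam c s' q) ∧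
    (∀ s s' : ℝ, 0 ≤ s → s < s' → s / Sh lam c s q < s' / Sh lam c s' q) := by
  induction c with
  | nil =>
    refine ⟨fun s s' _ _ => le_rfl, fun s s' _ h => ?_⟩
    rw [Sh_nil, Sh_nil, div_one, div_one]
    exact h
  | cons a c ih =>
    obtain ⟨Q, w⟩ := (q : Sp c × ℂ)
    have ha : 2 ≤ a := hc a List.mem_cons_self
    have ha0 : a ≠ 0 := by omega
    have hc' : ∀ b ∈ c, 2 ≤ b := fun b hb => hc b (List.mem_cons_of_mem a hb)
    obtain ⟨ih1, ih2⟩ := ih hc' Q
    have haR : (0 : ℝ) < (a : ℝ)⁻¹ := inv_pos.mpr (by exact_mod_cast (show 0 < a by omega))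
    -- the auxiliary function `A s = (s / Sh (s / lam) Q) ^ (1 / a)`
    set A : ℝ → ℝ := fun s => (s / Sh lam c (s / lam) Q) ^ ((a : ℝ)⁻¹) with hA
    have hSh : ∀ s, Sh lam (a :: c) s ((Q, w) : Sp c × ℂ) = max ‖w‖ (A s) := fun s => rfl
    have hdiv : ∀ s, s / Sh lam c (s / lam) Q = lam * ((s / lam) / Sh lam c (s / lam) Q) := by
      intro s
      field_simp
    have hmono : ∀ s s' : ℝ, 0 ≤ s → s ≤ s' →
        s / Sh lam c (s / lam) Q ≤ s' / Sh lam c (s' / lam) Q := by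
      intro s s' hs h
      rcases h.eq_or_lt with rfl | h
      · exact le_rfl
      · rw [hdiv s, hdiv s']
        exact mul_le_mul_of_nonneg_left (ih2 _ _ (div_nonneg hs hlam.le)
          ((div_lt_div_iff_of_pos_right hlam).mpr h)).le hlam.le
    have hA0 : ∀ s, 0 ≤ s → 0 ≤ A s := fun s hs =>
      Real.rpow_nonneg (div_nonneg hs (Sh_nonneg _ _ _)) _
    have hApow : ∀ s, 0 ≤ s → A s ^ a = s / Sh lam c (s / lam) Q := fun s hs =>
      Real.rpow_inv_natCast_pow (div_nonneg hs (Sh_nonneg _ _ _)) ha0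
    have hAmono : ∀ s s', 0 ≤ s → s ≤ s' → A s ≤ A s' := fun s s' hs h =>
      Real.rpow_le_rpow (div_nonneg hs (Sh_nonneg _ _ _)) (hmono s s' hs h) haR.le
    refine ⟨fun s s' hs h => ?_, fun s s' hs h => ?_⟩
    · rw [hSh, hSh]
      exact max_le_max le_rfl (hAmono s s' hs h)
    · rw [hSh, hSh]
      have hs' : 0 < s' := hs.trans_lt h
      have hSh' : 0 < Sh lam c (s' / lam) Q := Sh_pos hlam c (div_pos hs' hlam) Q
      have hAs' : 0 < A s' := Real.rpow_pos_of_pos (div_pos hs' hSh') _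
      have hm' : 0 < max ‖w‖ (A s') := lt_max_of_lt_right hAs'
      rcases hs.eq_or_lt with rfl | hs0
      · rw [zero_div]
        exact div_pos hs' hm'
      · have hSh0 : 0 < Sh lam c (s / lam) Q := Sh_pos hlam c (div_pos hs0 hlam) Q
        have hAs : 0 < A s := Real.rpow_pos_of_pos (div_pos hs0 hSh0) _
        have hm : 0 < max ‖w‖ (A s) := lt_max_of_lt_right hAs
        rw [div_lt_div_iff₀ hm hm']
        -- `s * A s' < s' * A s`
        have key : s * A s' < s' * A s := by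
          have h1 : (s * A s') ^ a < (s' * A s) ^ a := by
            rw [mul_pow, mul_pow, hApow s' hs'.le, hApow s hs, mul_div_assoc', mul_div_assoc',
              div_lt_div_iff₀ hSh' hSh0]
            have h2 : Sh lam c (s / lam) Q ≤ Sh lam c (s' / lam) Q :=
              ih1 _ _ (div_nonneg hs hlam.le) (div_le_div_of_nonneg_right h.le hlam.le)
            have h3 : s ^ (a - 1) < s' ^ (a - 1) := pow_lt_pow_left₀ h hs (by omega)
            have h4 : s ^ a = s ^ (a - 1) * s := by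
              rw [← pow_succ]; congr 1; omega
            have h5 : s' ^ a = s' ^ (a - 1) * s' := by
              rw [← pow_succ]; congr 1; omega
            rw [h4, h5]
            have h6 : s ^ (a - 1) * Sh lam c (s / lam) Q <
                s' ^ (a - 1) * Sh lam c (s' / lam) Q :=
              mul_lt_mul h3 h2 hSh0 (pow_nonneg hs'.le _)
            have h7 : 0 < s * s' := mul_pos hs0 hs'
            calc s ^ (a - 1) * s * s' * Sh lam c (s / lam) Q
                = (s * s') * (s ^ (a - 1) * Sh lam c (s / lam) Q) := by ring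
              _ < (s * s') * (s' ^ (a - 1) * Sh lam c (s' / lam) Q) :=
                  mul_lt_mul_of_pos_left h6 h7
              _ = s' ^ (a - 1) * s' * s * Sh lam c (s' / lam) Q := by ring
          exact lt_of_pow_lt_pow_left₀ a (mul_nonneg hs'.le hAs.le) h1
        rcases le_total (A s') ‖w‖ with h8 | h8
        · rw [max_eq_left h8]
          have hw : 0 < ‖w‖ := hAs'.trans_le h8
          calc s * ‖w‖ < s' * ‖w‖ := mul_lt_mul_of_pos_right h hw
            _ ≤ s' * max ‖w‖ (A s) := mul_le_mul_of_nonneg_left (le_max_left _ _) hs'.le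
        · rw [max_eq_right h8]
          calc s * A s' < s' * A s := key
            _ ≤ s' * max ‖w‖ (A s) := mul_le_mul_of_nonneg_left (le_max_right _ _) hs'.le

theorem Sh_mono {lam : ℝ} (hlam : 0 < lam) {c : List ℕ} (hc : ∀ a ∈ c, 2 ≤ a) (q : Sp c)
    {s s' : ℝ} (hs : 0 ≤ s) (h : s ≤ s') : Sh lam c s q ≤ Sh lam c s' q :=
  (Sh_mono_aux hlam hc q).1 s s' hs h

theorem div_Sh_strictMono {lam : ℝ} (hlam : 0 < lam) {c : List ℕ} (hc : ∀ a ∈ c, 2 ≤ a) (q : Sp c)
    {s s' : ℝ} (hs : 0 ≤ s) (h : s < s') : s / Sh lam c s q < s' / Sh lam c s' q :=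
  (Sh_mono_aux hlam hc q).2 s s' hs h

/-- The function `s ↦ s / Sh (s / lam) q` is strictly increasing. -/
theorem gSh_strictMono {lam : ℝ} (hlam : 0 < lam) {c : List ℕ} (hc : ∀ a ∈ c, 2 ≤ a) (q : Sp c)
    {s s' : ℝ} (hs : 0 ≤ s) (h : s < s') :
    s / Sh lam c (s / lam) q < s' / Sh lam c (s' / lam) q := by
  have hdiv : ∀ s, s / Sh lam c (s / lam) q = lam * ((s / lam) / Sh lam c (s / lam) q) := by
    intro s
    field_simp
  rw [hdiv s, hdiv s']
  exact mul_lt_mul_of_pos_left (div_Sh_strictMono hlam hc q (div_nonneg hs hlam.le)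
    ((div_lt_div_iff_of_pos_right hlam).mpr h)) hlam

theorem gSh_mono {lam : ℝ} (hlam : 0 < lam) {c : List ℕ} (hc : ∀ a ∈ c, 2 ≤ a) (q : Sp c)
    {s s' : ℝ} (hs : 0 ≤ s) (h : s ≤ s') :
    s / Sh lam c (s / lam) q ≤ s' / Sh lam c (s' / lam) q := by
  rcases h.eq_or_lt with rfl | h
  · exact le_rfl
  · exact (gSh_strictMono hlam hc q hs h).le

theorem gSh_inj {lam : ℝ} (hlam : 0 < lam) {c : List ℕ} (hc : ∀ a ∈ c, 2 ≤ a) (q : Sp c)
    {s s' : ℝ} (hs : 0 ≤ s) (hs' : 0 ≤ s')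
    (h : s / Sh lam c (s / lam) q = s' / Sh lam c (s' / lam) q) : s = s' := by
  rcases lt_trichotomy s s' with h1 | h1 | h1
  · exact absurd h (gSh_strictMono hlam hc q hs h1).ne
  · exact h1
  · exact absurd h (gSh_strictMono hlam hc q hs' h1).ne'

/-- `Sh` in local scale coordinates is `Sf`. -/
theorem Sh_Ph {lam : ℝ} (hlam : 0 < lam) {c : List ℕ} (hc : ∀ a ∈ c, 2 ≤ a) {σ : ℝ}
    (hσ : 0 ≤ σ) (p : Sp c) : Sh lam c σ (Ph lam c σ p) = Sf lam c σ p := by
  induction c generalizing σ with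
  | nil => rfl
  | cons a c ih =>
    obtain ⟨X, z⟩ := (p : Sp c × ℂ)
    have ha : 2 ≤ a := hc a List.mem_cons_self
    have haR : (0 : ℝ) < (a : ℝ)⁻¹ := inv_pos.mpr (by exact_mod_cast (show 0 < a by omega))
    have hc' : ∀ b ∈ c, 2 ≤ b := fun b hb => hc b (List.mem_cons_of_mem a hb)
    have hs0 : 0 ≤ sc σ z := sc_nonneg z
    have h1 := ih hc' (σ := sc σ z / lam) (div_nonneg hs0 hlam.le) X
    set S : ℝ := Sf lam (a :: c) σ ((X, z) : Sp c × ℂ) with hS
    have hS0 : 0 ≤ S := Sf_nonneg _ _ _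
    have hSdef : S = (sc σ z / Sf lam c (sc σ z / lam) X) ^ ((a : ℝ)⁻¹) := rfl
    have e1 : Sh lam (a :: c) σ (Ph lam (a :: c) σ ((X, z) : Sp c × ℂ)) =
        max ‖(S : ℂ) * xi σ z‖ ((σ / Sh lam c (σ / lam) (Ph lam c (sc σ z / lam) X)) ^
          ((a : ℝ)⁻¹)) := rfl
    have e2 : ‖(S : ℂ) * xi σ z‖ = S * (‖z‖ / sc σ z) := by
      rw [norm_mul, Complex.norm_real, Real.norm_eq_abs, abs_of_nonneg hS0, norm_xi]
    have hle : ‖(S : ℂ) * xi σ z‖ ≤ S := by
      rw [e2]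
      exact mul_le_of_le_one_right hS0 (div_le_one_of_le₀ (norm_le_sc σ z) (sc_nonneg z))
    rw [e1]
    rcases le_total ‖z‖ σ with h | h
    · have h2 : sc σ z = σ := sc_of_ge h
      rw [h2] at h1 hSdef ⊢
      rw [h1, ← hSdef]
      exact max_eq_right hle
    · have h2 : sc σ z = ‖z‖ := sc_of_le h
      have h3 : (σ / Sh lam c (σ / lam) (Ph lam c (sc σ z / lam) X)) ^ ((a : ℝ)⁻¹) ≤ S := by
        rw [hSdef, ← h1]
        refine Real.rpow_le_rpow (div_nonneg hσ (Sh_nonneg _ _ _)) ?_ haR.le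
        exact gSh_mono hlam hc' _ hσ (le_sc σ z)
      rcases eq_or_ne z 0 with rfl | hz
      · have h4 : sc σ (0 : ℂ) = 0 := by rw [h2, norm_zero]
        have h5 : S = 0 := by
          rw [hSdef, h4, zero_div, Real.zero_rpow haR.ne']
        rw [h5] at h3 hle ⊢
        refine le_antisymm (max_le hle h3) (le_max_of_le_left (norm_nonneg _))
      · have h4 : ‖(S : ℂ) * xi σ z‖ = S := by
          rw [e2, h2, div_self (norm_ne_zero_iff.mpr hz), mul_one]
        rw [h4]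
        exact max_eq_left h3

theorem Sf_pos_of_sc_ne {lam : ℝ} (hlam : 0 < lam) (a : ℕ) (c : List ℕ) {σ : ℝ}
    (X : Sp c) (z : ℂ) (h : sc σ z ≠ 0) : 0 < Sf lam (a :: c) σ ((X, z) : Sp c × ℂ) := by
  have h0 : 0 < sc σ z := lt_of_le_of_ne (sc_nonneg z) (Ne.symm h)
  exact Real.rpow_pos_of_pos (div_pos h0 (Sf_pos hlam c (div_pos h0 hlam) X)) _

theorem injective_Ph {lam : ℝ} (hlam : 0 < lam) {c : List ℕ} (hc : ∀ a ∈ c, 2 ≤ a) {σ : ℝ}
    (hσ : 0 ≤ σ) : Function.Injective (Ph lam c σ) := by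
  induction c generalizing σ with
  | nil => exact fun p p' h => h
  | cons a c ih =>
    intro p p' hpp
    have hE := Sh_Ph hlam hc hσ p
    have hE' := Sh_Ph hlam hc hσ p'
    rw [hpp, hE'] at hE
    obtain ⟨X, z⟩ := (p : Sp c × ℂ)
    obtain ⟨X', z'⟩ := (p' : Sp c × ℂ)
    have ha : 2 ≤ a := hc a List.mem_cons_self
    have ha0 : a ≠ 0 := by omega
    have hc' : ∀ b ∈ c, 2 ≤ b := fun b hb => hc b (List.mem_cons_of_mem a hb)
    have h1 : Ph lam c (sc σ z / lam) X = Ph lam c (sc σ z' / lam) X' := congrArg Prod.fst hpp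
    have h2 : (Sf lam (a :: c) σ ((X, z) : Sp c × ℂ) : ℂ) * xi σ z =
        (Sf lam (a :: c) σ ((X', z') : Sp c × ℂ) : ℂ) * xi σ z' := congrArg Prod.snd hpp
    have h3 : Sf lam (a :: c) σ ((X', z') : Sp c × ℂ) = Sf lam (a :: c) σ ((X, z) : Sp c × ℂ) := hE
    have h4 := Sf_cons_pow (lam := lam) ha0 c σ ((X, z) : Sp c × ℂ)
    have h5 := Sf_cons_pow (lam := lam) ha0 c σ ((X', z') : Sp c × ℂ)
    rw [h3, h4] at h5
    have h5' : sc σ z / Sf lam c (sc σ z / lam) X = sc σ z' / Sf lam c (sc σ z' / lam) X' := h5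
    rw [← Sh_Ph hlam hc' (div_nonneg (sc_nonneg z) hlam.le) X,
      ← Sh_Ph hlam hc' (div_nonneg (sc_nonneg z') hlam.le) X', ← h1] at h5'
    have h6 : sc σ z = sc σ z' := gSh_inj hlam hc' _ (sc_nonneg z) (sc_nonneg z') h5'
    rw [← h6] at h1
    have h7 : X = X' := ih hc' (div_nonneg (sc_nonneg z) hlam.le) h1
    rw [h3] at h2
    have h8 : z = z' := by
      rcases eq_or_ne (sc σ z) 0 with h9 | h9
      · rw [(sc_eq_zero hσ h9).2, (sc_eq_zero hσ (h6 ▸ h9 : sc σ z' = 0)).2]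
      · have h10 : (Sf lam (a :: c) σ ((X, z) : Sp c × ℂ) : ℂ) ≠ 0 := by
          exact_mod_cast (Sf_pos_of_sc_ne hlam a c X z h9).ne'
        have h11 : xi σ z = xi σ z' := mul_left_cancel₀ h10 h2
        rw [xi, xi, ← h6] at h11
        have h12 : ((sc σ z : ℝ) : ℂ) ≠ 0 := by exact_mod_cast h9
        exact (div_left_inj' h12).mp h11
    subst h7
    subst h8
    rfl

/-! ### Surjectivity -/

theorem continuousOn_Sh {lam : ℝ} (hlam : 0 < lam) (c : List ℕ) (q : Sp c) :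
    ContinuousOn (fun s : ℝ => Sh lam c s q) (Ioi 0) := by
  induction c with
  | nil => exact continuousOn_const
  | cons a c ih =>
    obtain ⟨Q, w⟩ := (q : Sp c × ℂ)
    have h1 : ContinuousOn (fun s : ℝ => Sh lam c (s / lam) Q) (Ioi 0) :=
      (ih Q).comp (continuous_id.div_const lam).continuousOn fun s hs => div_pos hs hlam
    have h2 : ContinuousOn (fun s : ℝ => s / Sh lam c (s / lam) Q) (Ioi 0) :=
      continuousOn_id.div h1 fun s hs => (Sh_pos hlam c (div_pos hs hlam) Q).ne'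
    have h3 : ContinuousOn (fun s : ℝ => (s / Sh lam c (s / lam) Q) ^ ((a : ℝ)⁻¹)) (Ioi 0) :=
      h2.rpow_const fun s _ => Or.inr (inv_nonneg.mpr (Nat.cast_nonneg a))
    exact continuousOn_const.sup h3

/-- Powers of the function `s / Sh s`. -/
theorem div_Sh_cons_le {lam : ℝ} (hlam : 0 < lam) {a : ℕ} (ha : a ≠ 0) (c : List ℕ) (Q : Sp c)
    (w : ℂ) {s : ℝ} (hs : 0 < s) :
    (s / Sh lam (a :: c) s ((Q, w) : Sp c × ℂ)) ^ a ≤ s ^ (a - 1) * Sh lam c (s / lam) Q := by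
  have h0 : 0 < Sh lam c (s / lam) Q := Sh_pos hlam c (div_pos hs hlam) Q
  have h1 : 0 < (s / Sh lam c (s / lam) Q) ^ ((a : ℝ)⁻¹) := Real.rpow_pos_of_pos (div_pos hs h0) _
  have h2 : (s / Sh lam c (s / lam) Q) ^ ((a : ℝ)⁻¹) ≤ Sh lam (a :: c) s ((Q, w) : Sp c × ℂ) :=
    le_max_right _ _
  have h3 : ((s / Sh lam c (s / lam) Q) ^ ((a : ℝ)⁻¹)) ^ a = s / Sh lam c (s / lam) Q :=
    Real.rpow_inv_natCast_pow (div_pos hs h0).le ha
  calc (s / Sh lam (a :: c) s ((Q, w) : Sp c × ℂ)) ^ a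
      ≤ (s / (s / Sh lam c (s / lam) Q) ^ ((a : ℝ)⁻¹)) ^ a := by
        refine pow_le_pow_left₀ (div_nonneg hs.le (h1.le.trans h2)) ?_ a
        exact div_le_div_of_nonneg_left hs.le h1 h2
    _ = s ^ (a - 1) * Sh lam c (s / lam) Q := by
        rw [div_pow, h3]
        have h4 : s ^ a = s ^ (a - 1) * s := by
          rw [← pow_succ]; congr 1; omega
        rw [h4]
        field_simp

/-- Small values of `s / Sh s`. -/
theorem exists_div_Sh_le {lam : ℝ} (hlam : 0 < lam) {c : List ℕ} (hc : ∀ a ∈ c, 2 ≤ a) (q : Sp c)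
    {y : ℝ} (hy : 0 < y) : ∃ s : ℝ, 0 < s ∧ s / Sh lam c s q ≤ y := by
  cases c with
  | nil =>
    refine ⟨y, hy, ?_⟩
    rw [Sh_nil, div_one]
  | cons a c =>
    obtain ⟨Q, w⟩ := (q : Sp c × ℂ)
    have ha : 2 ≤ a := hc a List.mem_cons_self
    have ha0 : a ≠ 0 := by omega
    have hc' : ∀ b ∈ c, 2 ≤ b := fun b hb => hc b (List.mem_cons_of_mem a hb)
    have hK : 0 < Sh lam c (1 / lam) Q := Sh_pos hlam c (div_pos one_pos hlam) Q
    set K := Sh lam c (1 / lam) Q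
    refine ⟨min 1 (y ^ a / K), lt_min one_pos (div_pos (pow_pos hy a) hK), ?_⟩
    set s := min 1 (y ^ a / K) with hs
    have hs0 : 0 < s := lt_min one_pos (div_pos (pow_pos hy a) hK)
    have hs1 : s ≤ 1 := min_le_left _ _
    have h1 := div_Sh_cons_le hlam ha0 c Q w hs0
    have h2 : Sh lam c (s / lam) Q ≤ K :=
      Sh_mono hlam hc' Q (div_nonneg hs0.le hlam.le) (div_le_div_of_nonneg_right hs1 hlam.le)
    have h3 : s ^ (a - 1) ≤ s := by
      calc s ^ (a - 1) ≤ s ^ 1 := pow_le_pow_of_le_one hs0.le hs1 (by omega)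
        _ = s := pow_one s
    have h4 : s ^ (a - 1) * Sh lam c (s / lam) Q ≤ y ^ a := by
      calc s ^ (a - 1) * Sh lam c (s / lam) Q ≤ s * K :=
            mul_le_mul h3 h2 (Sh_nonneg _ _ _) hs0.le
        _ ≤ y ^ a / K * K := mul_le_mul_of_nonneg_right (min_le_right _ _) hK.le
        _ = y ^ a := by field_simp
    exact le_of_pow_le_pow_left₀ ha0 hy.le (h1.trans h4)

/-- Large values of `s / Sh s`. -/
theorem exists_le_div_Sh {lam : ℝ} (hlam : 0 < lam) {c : List ℕ} (hc : ∀ a ∈ c, 2 ≤ a) (q : Sp c)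
    {y : ℝ} (hy : 0 < y) : ∃ s : ℝ, 0 < s ∧ y ≤ s / Sh lam c s q := by
  cases c with
  | nil =>
    refine ⟨y, hy, ?_⟩
    rw [Sh_nil, div_one]
  | cons a c =>
    obtain ⟨Q, w⟩ := (q : Sp c × ℂ)
    have ha : 2 ≤ a := hc a List.mem_cons_self
    have ha0 : a ≠ 0 := by omega
    have hc' : ∀ b ∈ c, 2 ≤ b := fun b hb => hc b (List.mem_cons_of_mem a hb)
    have hK : 0 < Sh lam c (1 / lam) Q := Sh_pos hlam c (div_pos one_pos hlam) Q
    set K := Sh lam c (1 / lam) Q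
    set s := max (max 1 (y ^ a / K)) (y * ‖w‖) with hs
    have hs1 : 1 ≤ s := (le_max_left _ _).trans (le_max_left _ _)
    have hs2 : y ^ a / K ≤ s := (le_max_right _ _).trans (le_max_left _ _)
    have hs3 : y * ‖w‖ ≤ s := le_max_right _ _
    have hs0 : 0 < s := one_pos.trans_le hs1
    refine ⟨s, hs0, ?_⟩
    have h0 : 0 < Sh lam c (s / lam) Q := Sh_pos hlam c (div_pos hs0 hlam) Q
    rw [le_div_iff₀ (Sh_pos hlam (a :: c) hs0 ((Q, w) : Sp c × ℂ))]
    show y * max ‖w‖ ((s / Sh lam c (s / lam) Q) ^ ((a : ℝ)⁻¹)) ≤ s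
    rw [mul_max_of_nonneg _ _ hy.le]
    refine max_le hs3 ?_
    refine le_of_pow_le_pow_left₀ ha0 hs0.le ?_
    rw [mul_pow, Real.rpow_inv_natCast_pow (div_pos hs0 h0).le ha0, mul_div_assoc',
      div_le_iff₀ h0]
    have h2 : K ≤ Sh lam c (s / lam) Q :=
      Sh_mono hlam hc' Q (div_nonneg zero_le_one hlam.le)
        (div_le_div_of_nonneg_right hs1 hlam.le)
    have h3 : s ≤ s ^ (a - 1) := by
      calc s = s ^ 1 := (pow_one s).symm
        _ ≤ s ^ (a - 1) := pow_le_pow_right₀ hs1 (by omega)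
    have h4 : y ^ a ≤ s * K := (div_le_iff₀ hK).mp hs2
    have h5 : s ^ a = s ^ (a - 1) * s := by
      rw [← pow_succ]; congr 1; omega
    calc y ^ a * s ≤ (s * K) * s := mul_le_mul_of_nonneg_right h4 hs0.le
      _ ≤ (s ^ (a - 1) * Sh lam c (s / lam) Q) * s := by
          refine mul_le_mul_of_nonneg_right ?_ hs0.le
          exact mul_le_mul h3 h2 hK.le (pow_nonneg hs0.le _)
      _ = s ^ a * Sh lam c (s / lam) Q := by rw [h5]; ring

theorem exists_gSh_eq {lam : ℝ} (hlam : 0 < lam) {c : List ℕ} (hc : ∀ a ∈ c, 2 ≤ a) (q : Sp c)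
    {y : ℝ} (hy : 0 < y) : ∃ s : ℝ, 0 < s ∧ s / Sh lam c (s / lam) q = y := by
  obtain ⟨s1, hs1, h1⟩ := exists_div_Sh_le hlam hc q (y := y / lam) (div_pos hy hlam)
  obtain ⟨s2, hs2, h2⟩ := exists_le_div_Sh hlam hc q (y := y / lam) (div_pos hy hlam)
  have hcont : ContinuousOn (fun s : ℝ => s / Sh lam c s q) (uIcc s1 s2) := by
    have h3 : uIcc s1 s2 ⊆ Ioi 0 := fun s hs => (lt_min hs1 hs2).trans_le hs.1
    exact (continuousOn_id.div (continuousOn_Sh hlam c q)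
      fun s hs => (Sh_pos hlam c hs q).ne').mono h3
  have h3 : y / lam ∈ uIcc (s1 / Sh lam c s1 q) (s2 / Sh lam c s2 q) :=
    mem_uIcc.mpr (Or.inl ⟨h1, h2⟩)
  obtain ⟨s, hs, hsy⟩ := intermediate_value_uIcc hcont h3
  have hs0 : 0 < s := (lt_min hs1 hs2).trans_le hs.1
  refine ⟨lam * s, mul_pos hlam hs0, ?_⟩
  rw [mul_div_cancel_left₀ s hlam.ne', mul_div_assoc]
  have h4 : s / Sh lam c s q = y / lam := hsy
  rw [h4]
  field_simp

theorem surjective_Ph {lam : ℝ} (hlam : 0 < lam) {c : List ℕ} (hc : ∀ a ∈ c, 2 ≤ a) {σ : ℝ}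
    (hσ : 0 ≤ σ) : Function.Surjective (Ph lam c σ) := by
  induction c generalizing σ with
  | nil => exact fun q => ⟨q, rfl⟩
  | cons a c ih =>
    intro q
    obtain ⟨Q, w⟩ := (q : Sp c × ℂ)
    have ha : 2 ≤ a := hc a List.mem_cons_self
    have ha0 : a ≠ 0 := by omega
    have haR : (0 : ℝ) < (a : ℝ)⁻¹ := inv_pos.mpr (by exact_mod_cast (show 0 < a by omega))
    have hc' : ∀ b ∈ c, 2 ≤ b := fun b hb => hc b (List.mem_cons_of_mem a hb)
    -- reduction: it suffices to find the scale `s0` and `z`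
    have key : ∀ (s0 : ℝ) (z : ℂ), 0 ≤ s0 → sc σ z = s0 →
        (((s0 / Sh lam c (s0 / lam) Q) ^ ((a : ℝ)⁻¹) : ℝ) : ℂ) * (z / (s0 : ℂ)) = w →
        ∃ p : Sp (a :: c), Ph lam (a :: c) σ p = ((Q, w) : Sp c × ℂ) := by
      intro s0 z hs0 hz hw
      obtain ⟨X, hX⟩ := ih hc' (σ := s0 / lam) (div_nonneg hs0 hlam.le) Q
      refine ⟨((X, z) : Sp c × ℂ), ?_⟩
      have e1 : Sf lam c (s0 / lam) X = Sh lam c (s0 / lam) Q := by
        rw [← Sh_Ph hlam hc' (div_nonneg hs0 hlam.le) X, hX]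
      have e2 : Ph lam (a :: c) σ ((X, z) : Sp c × ℂ) =
          ((Ph lam c (sc σ z / lam) X,
            (((sc σ z / Sf lam c (sc σ z / lam) X) ^ ((a : ℝ)⁻¹) : ℝ) : ℂ) *
              (z / (sc σ z : ℂ))) : Sp c × ℂ) := rfl
      rw [e2, hz, hX, e1, hw]
    rcases le_or_gt (‖w‖ ^ a) (σ / Sh lam c (σ / lam) Q) with h | h
    · -- the scale is `σ`
      set S : ℝ := (σ / Sh lam c (σ / lam) Q) ^ ((a : ℝ)⁻¹) with hS
      have hS0 : 0 ≤ S := Real.rpow_nonneg (div_nonneg hσ (Sh_nonneg _ _ _)) _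
      have hSa : S ^ a = σ / Sh lam c (σ / lam) Q :=
        Real.rpow_inv_natCast_pow (div_nonneg hσ (Sh_nonneg _ _ _)) ha0
      have hwS : ‖w‖ ≤ S := by
        refine le_of_pow_le_pow_left₀ ha0 hS0 ?_
        rw [hSa]
        exact h
      have hnorm : ‖(σ : ℂ) * (w / (S : ℂ))‖ ≤ σ := by
        rw [norm_mul, norm_div, Complex.norm_real, Complex.norm_real, Real.norm_eq_abs,
          Real.norm_eq_abs, abs_of_nonneg hσ, abs_of_nonneg hS0]
        exact mul_le_of_le_one_right hσ (div_le_one_of_le₀ hwS hS0)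
      refine key σ ((σ : ℂ) * (w / (S : ℂ))) hσ (sc_of_ge hnorm) ?_
      rcases hσ.eq_or_lt with h0 | h0
      · have h1 : S = 0 := by
          rw [hS, ← h0, zero_div, Real.zero_rpow haR.ne']
        have h2 : w = 0 := by
          rw [h1] at hwS
          exact norm_le_zero_iff.mp hwS
        rw [h2, ← h0]
        simp
      · have h1 : 0 < S := Real.rpow_pos_of_pos
          (div_pos h0 (Sh_pos hlam c (div_pos h0 hlam) Q)) _
        have h2 : (S : ℂ) ≠ 0 := by exact_mod_cast h1.ne'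
        have h3 : (σ : ℂ) ≠ 0 := by exact_mod_cast h0.ne'
        rw [← hS]
        field_simp
    · -- the scale is larger than `σ`
      have hw0 : 0 < ‖w‖ := by
        by_contra hcon
        have h1 : ‖w‖ = 0 := le_antisymm (not_lt.mp hcon) (norm_nonneg w)
        rw [h1, zero_pow ha0] at h
        exact absurd (div_nonneg hσ (Sh_nonneg _ _ _)) (not_le.mpr h)
      obtain ⟨s0, hs0, hg⟩ := exists_gSh_eq hlam hc' Q (y := ‖w‖ ^ a) (pow_pos hw0 a)
      have hlt : σ < s0 := by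
        by_contra hcon
        have h1 := gSh_mono hlam hc' Q hs0.le (not_lt.mp hcon)
        rw [hg] at h1
        exact absurd h1 (not_le.mpr h)
      have hwc : ((‖w‖ : ℝ) : ℂ) ≠ 0 := by exact_mod_cast hw0.ne'
      have hnorm : ‖(s0 : ℂ) * (w / (‖w‖ : ℂ))‖ = s0 := by
        rw [norm_mul, norm_div, Complex.norm_real, Complex.norm_real, Real.norm_eq_abs,
          Real.norm_eq_abs, abs_of_nonneg hs0.le, abs_of_nonneg (norm_nonneg w),
          div_self hw0.ne', mul_one]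
      refine key s0 ((s0 : ℂ) * (w / (‖w‖ : ℂ))) hs0.le ?_ ?_
      · rw [sc_of_le (by rw [hnorm]; exact hlt.le), hnorm]
      · have h1 : (‖w‖ ^ a) ^ ((a : ℝ)⁻¹) = ‖w‖ := Real.pow_rpow_inv_natCast (norm_nonneg w) ha0
        rw [hg, h1]
        have h3 : (s0 : ℂ) ≠ 0 := by exact_mod_cast hs0.ne'
        field_simp

theorem bijective_Ph {lam : ℝ} (hlam : 0 < lam) {c : List ℕ} (hc : ∀ a ∈ c, 2 ≤ a) {σ : ℝ}
    (hσ : 0 ≤ σ) : Function.Bijective (Ph lam c σ) :=
  ⟨injective_Ph hlam hc hσ, surjective_Ph hlam hc hσ⟩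

end Vale.Agent.P268.T
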