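import Vale.Agent.P268.T.H963.Scale

/-!
# P268, topological half, block P0: continuity of the local scale coordinates

`Sf lam c` and `Ph lam c` are continuous in (scale, point) on `σ ≥ 0`.  The induction carries the
pair `Sf lam c`, `Tf lam c (s, X) = s / Sf lam c (s / lam) X`: the first is the `1 / a`-th power of
the second one of the tail, and the second tends to `0` as `s → 0` because
`Tf lam (a :: c) (s, p) ≤ (s ^ (a - 1) * (Sf lam c (s' / lam) p.1 * lam)) ^ (1 / a)`,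
`s' = sc (s / lam) p.2`.
-/

set_option linter.unusedSectionVars false

namespace Vale.Agent.P268.T

open Set Filter Topology Vale.Agent.P268.Z

/-- The half space of the scales `σ ≥ 0`. -/
def HS (c : List ℕ) : Set (ℝ × Sp c) := Ici (0 : ℝ) ×ˢ univ

theorem mem_HS {c : List ℕ} {q : ℝ × Sp c} : q ∈ HS c ↔ 0 ≤ q.1 := by
  simp [HS]

/-- The scale and the variables passed to the tail. -/
noncomputable def sA (a : ℕ) (c : List ℕ) (q : ℝ × Sp (a :: c)) : ℝ × Sp c :=
  (sc q.1 (q.2 : Sp c × ℂ).2, (q.2 : Sp c × ℂ).1)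

/-- Dividing the scale by `lam`. -/
noncomputable def sD (lam : ℝ) (c : List ℕ) (q : ℝ × Sp c) : ℝ × Sp c := (q.1 / lam, q.2)

theorem continuous_fstSp (a : ℕ) (c : List ℕ) :
    Continuous (fun p : Sp (a :: c) => (p : Sp c × ℂ).1) :=
  (continuous_fst : Continuous (fun p : Sp c × ℂ => p.1))

theorem continuous_sndSp (a : ℕ) (c : List ℕ) :
    Continuous (fun p : Sp (a :: c) => (p : Sp c × ℂ).2) :=
  (continuous_snd : Continuous (fun p : Sp c × ℂ => p.2))

theorem continuous_scC : Continuous (fun q : ℝ × ℂ => sc q.1 q.2) :=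
  (continuous_snd.norm).max continuous_fst

theorem continuous_scSp (a : ℕ) (c : List ℕ) :
    Continuous (fun q : ℝ × Sp (a :: c) => sc q.1 (q.2 : Sp c × ℂ).2) :=
  continuous_scC.comp (continuous_fst.prodMk ((continuous_sndSp a c).comp continuous_snd))

theorem continuous_sA (a : ℕ) (c : List ℕ) : Continuous (sA a c) :=
  (continuous_scSp a c).prodMk ((continuous_fstSp a c).comp continuous_snd)

theorem continuous_sD (lam : ℝ) (c : List ℕ) : Continuous (sD lam c) :=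
  (continuous_fst.div_const lam).prodMk continuous_snd

theorem mapsTo_sA (a : ℕ) (c : List ℕ) : MapsTo (sA a c) (HS (a :: c)) (HS c) :=
  fun _ _ => mem_HS.mpr (sc_nonneg _)

theorem mapsTo_sD {lam : ℝ} (hlam : 0 < lam) (c : List ℕ) : MapsTo (sD lam c) (HS c) (HS c) :=
  fun _ hq => mem_HS.mpr (div_nonneg (mem_HS.mp hq) hlam.le)

/-- The quotient of the scale by the modulus of the head variable of the tail. -/
noncomputable def Tf (lam : ℝ) (c : List ℕ) (q : ℝ × Sp c) : ℝ := q.1 / Sf lam c (q.1 / lam) q.2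

theorem Tf_nonneg {lam : ℝ} (c : List ℕ) {q : ℝ × Sp c} (hq : 0 ≤ q.1) : 0 ≤ Tf lam c q :=
  div_nonneg hq (Sf_nonneg _ _ _)

theorem Sf_eq_Tf (lam : ℝ) (a : ℕ) (c : List ℕ) (q : ℝ × Sp (a :: c)) :
    Sf lam (a :: c) q.1 q.2 = Tf lam c (sA a c q) ^ ((a : ℝ)⁻¹) := rfl

/-- The bound for `Tf` of a longer chain. -/
noncomputable def Gb (lam : ℝ) (a : ℕ) (c : List ℕ) (q : ℝ × Sp (a :: c)) : ℝ :=
  (q.1 ^ (a - 1) * ((fun r : ℝ × Sp c => Sf lam c r.1 r.2)
    (sD lam c (sA a c (sD lam (a :: c) q))) * lam)) ^ ((a : ℝ)⁻¹)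

theorem Gb_zero (lam : ℝ) {a : ℕ} (ha : 2 ≤ a) (c : List ℕ) {q : ℝ × Sp (a :: c)} (hq : q.1 = 0) :
    Gb lam a c q = 0 := by
  unfold Gb
  rw [hq, zero_pow (by omega), zero_mul, Real.zero_rpow]
  exact inv_ne_zero (by exact_mod_cast (by omega : a ≠ 0))

theorem Gb_nonneg {lam : ℝ} (hlam : 0 < lam) (a : ℕ) (c : List ℕ) {q : ℝ × Sp (a :: c)}
    (hq : 0 ≤ q.1) : 0 ≤ Gb lam a c q :=
  Real.rpow_nonneg (mul_nonneg (pow_nonneg hq _) (mul_nonneg (Sf_nonneg _ _ _) hlam.le)) _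

theorem Tf_le_Gb {lam : ℝ} (hlam : 0 < lam) {a : ℕ} (ha : 2 ≤ a) (c : List ℕ)
    {q : ℝ × Sp (a :: c)} (hq : 0 ≤ q.1) : Tf lam (a :: c) q ≤ Gb lam a c q := by
  have ha0 : a ≠ 0 := by omega
  rcases hq.eq_or_lt with h0 | hpos
  · rw [Gb_zero lam ha c h0.symm]
    unfold Tf
    rw [← h0, zero_div]
  · rw [← pow_le_pow_iff_left₀ (Tf_nonneg (a :: c) hq) (Gb_nonneg hlam a c hq) ha0]
    unfold Tf Gb
    rw [Real.rpow_inv_natCast_pow (mul_nonneg (pow_nonneg hq _)
      (mul_nonneg (Sf_nonneg _ _ _) hlam.le)) ha0]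
    obtain ⟨s, p⟩ := q
    obtain ⟨X, z⟩ := (p : Sp c × ℂ)
    simp only at hpos hq
    rw [div_pow, Sf_cons_pow ha0 c (s / lam) ((X, z) : Sp c × ℂ)]
    show s ^ a / (sc (s / lam) z / Sf lam c (sc (s / lam) z / lam) X) ≤
      s ^ (a - 1) * (Sf lam c (sc (s / lam) z / lam) X * lam)
    have h1 : 0 < sc (s / lam) z := sc_pos (div_pos hpos hlam) z
    have h2 : 0 < Sf lam c (sc (s / lam) z / lam) X := Sf_pos hlam c (div_pos h1 hlam) X
    have h3 : s ≤ sc (s / lam) z * lam := (div_le_iff₀ hlam).mp (le_sc (s / lam) z)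
    have h4 : s ^ a = s ^ (a - 1) * s := by
      rw [← pow_succ]
      congr 1
      omega
    rw [div_div_eq_mul_div, div_le_iff₀ h1, h4]
    have h5 : 0 ≤ s ^ (a - 1) * Sf lam c (sc (s / lam) z / lam) X :=
      mul_nonneg (pow_nonneg hq _) h2.le
    nlinarith [mul_le_mul_of_nonneg_left h3 h5]

theorem continuousOn_Gb {lam : ℝ} (hlam : 0 < lam) (a : ℕ) (c : List ℕ)
    (h : ContinuousOn (fun q : ℝ × Sp c => Sf lam c q.1 q.2) (HS c)) :
    ContinuousOn (Gb lam a c) (HS (a :: c)) := by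
  have h1 : ContinuousOn (fun q : ℝ × Sp (a :: c) => (fun r : ℝ × Sp c => Sf lam c r.1 r.2)
      (sD lam c (sA a c (sD lam (a :: c) q)))) (HS (a :: c)) :=
    h.comp (((continuous_sD lam c).comp ((continuous_sA a c).comp
      (continuous_sD lam (a :: c)))).continuousOn)
      (fun q hq => mapsTo_sD hlam c (mapsTo_sA a c (mapsTo_sD hlam (a :: c) hq)))
  have h2 : ContinuousOn (fun q : ℝ × Sp (a :: c) => q.1 ^ (a - 1)) (HS (a :: c)) :=
    (continuous_fst.pow _).continuousOn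
  exact (h2.mul (h1.mul continuousOn_const)).rpow_const
    (fun q _ => Or.inr (inv_nonneg.mpr (Nat.cast_nonneg a)))

theorem continuousOn_Tf_cons {lam : ℝ} (hlam : 0 < lam) {a : ℕ} (ha : 2 ≤ a) (c : List ℕ)
    (h : ContinuousOn (fun q : ℝ × Sp c => Sf lam c q.1 q.2) (HS c))
    (h' : ContinuousOn (fun q : ℝ × Sp (a :: c) => Sf lam (a :: c) q.1 q.2) (HS (a :: c))) :
    ContinuousOn (Tf lam (a :: c)) (HS (a :: c)) := by
  intro q hq
  have hq0 := mem_HS.mp hq
  rcases hq0.eq_or_lt with h0 | hpos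
  · have e0 : Tf lam (a :: c) q = 0 := by
      unfold Tf
      rw [← h0, zero_div]
    have hG := continuousOn_Gb hlam a c h q hq
    unfold ContinuousWithinAt at hG ⊢
    rw [Gb_zero lam ha c h0.symm] at hG
    rw [e0]
    refine squeeze_zero' ?_ ?_ hG
    · filter_upwards [self_mem_nhdsWithin] with r hr
      exact Tf_nonneg (a :: c) (mem_HS.mp hr)
    · filter_upwards [self_mem_nhdsWithin] with r hr
      exact Tf_le_Gb hlam ha c (mem_HS.mp hr)
  · have h1 : ContinuousWithinAt (fun r : ℝ × Sp (a :: c) => Sf lam (a :: c) (r.1 / lam) r.2)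
        (HS (a :: c)) q :=
      (h'.comp (continuous_sD lam (a :: c)).continuousOn (mapsTo_sD hlam (a :: c))) q hq
    exact (continuous_fst.continuousWithinAt).div h1 (Sf_pos hlam (a :: c) (div_pos hpos hlam) _).ne'

theorem continuousOn_pair {lam : ℝ} (hlam : 0 < lam) {c : List ℕ} (hc : ∀ a ∈ c, 2 ≤ a) :
    ContinuousOn (fun q : ℝ × Sp c => Sf lam c q.1 q.2) (HS c) ∧
      ContinuousOn (Tf lam c) (HS c) := by
  induction c with
  | nil =>
    constructor
    · exact continuousOn_const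
    · have e : Tf lam [] = fun q => q.1 := by
        funext q
        unfold Tf
        rw [Sf_nil, div_one]
      rw [e]
      exact continuous_fst.continuousOn
  | cons a c ih =>
    have ha := hc a List.mem_cons_self
    obtain ⟨i1, i2⟩ := ih fun b hb => hc b (List.mem_cons_of_mem a hb)
    have j1 : ContinuousOn (fun q : ℝ × Sp (a :: c) => Sf lam (a :: c) q.1 q.2) (HS (a :: c)) := by
      have k1 : ContinuousOn (fun q : ℝ × Sp (a :: c) => Tf lam c (sA a c q)) (HS (a :: c)) :=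
        i2.comp (continuous_sA a c).continuousOn (mapsTo_sA a c)
      exact k1.rpow_const (fun q _ => Or.inr (inv_nonneg.mpr (Nat.cast_nonneg a)))
    exact ⟨j1, continuousOn_Tf_cons hlam ha c i1 j1⟩

/-- **Continuity of the modulus in the scale and the point.** -/
theorem continuousOn_Sf {lam : ℝ} (hlam : 0 < lam) {c : List ℕ} (hc : ∀ a ∈ c, 2 ≤ a) :
    ContinuousOn (fun q : ℝ × Sp c => Sf lam c q.1 q.2) (Ici 0 ×ˢ univ) :=
  (continuousOn_pair hlam hc).1

/-- Continuity of `s / Sf (s / lam)`. -/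
theorem continuousOn_Tf {lam : ℝ} (hlam : 0 < lam) {c : List ℕ} (hc : ∀ a ∈ c, 2 ≤ a) :
    ContinuousOn (fun q : ℝ × Sp c => q.1 / Sf lam c (q.1 / lam) q.2) (Ici 0 ×ˢ univ) :=
  (continuousOn_pair hlam hc).2

theorem continuousAt_xiC {σ : ℝ} {z : ℂ} (h : 0 < sc σ z) :
    ContinuousAt (fun q : ℝ × ℂ => xi q.1 q.2) (σ, z) := by
  have h1 : ((sc σ z : ℝ) : ℂ) ≠ 0 := by exact_mod_cast h.ne'
  exact continuous_snd.continuousAt.div
    (Complex.continuous_ofReal.comp continuous_scC).continuousAt h1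

theorem norm_mul_xi_le {s : ℝ} (hs : 0 ≤ s) (σ : ℝ) (z : ℂ) : ‖(s : ℂ) * xi σ z‖ ≤ s := by
  rw [norm_mul, Complex.norm_real, Real.norm_eq_abs, abs_of_nonneg hs]
  exact mul_le_of_le_one_right hs (norm_xi_le σ z)

/-- Continuity of the head coordinate. -/
theorem continuousOn_hdPh {lam : ℝ} (hlam : 0 < lam) {a : ℕ} {c : List ℕ}
    (hc : ∀ b ∈ a :: c, 2 ≤ b) :
    ContinuousOn (fun q : ℝ × Sp (a :: c) =>
      (Sf lam (a :: c) q.1 q.2 : ℂ) * xi q.1 (q.2 : Sp c × ℂ).2) (HS (a :: c)) := by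
  intro q hq
  have hS : ContinuousWithinAt (fun q : ℝ × Sp (a :: c) => Sf lam (a :: c) q.1 q.2)
    (HS (a :: c)) q := (continuousOn_pair hlam hc).1 q hq
  have ha := hc a List.mem_cons_self
  rcases (sc_nonneg (σ := q.1) (q.2 : Sp c × ℂ).2).eq_or_lt with h0 | hpos
  · obtain ⟨e1, e2⟩ := sc_eq_zero (mem_HS.mp hq) h0.symm
    have e3 : Sf lam (a :: c) q.1 q.2 = 0 := by
      have e4 : (q.2 : Sp c × ℂ) = ((q.2 : Sp c × ℂ).1, 0) := Prod.ext rfl e2
      rw [e1]
      exact (congrArg (Sf lam (a :: c) 0) e4).trans (Sf_zero_zero (by omega) c _)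
    unfold ContinuousWithinAt at hS ⊢
    dsimp only at hS ⊢
    rw [e3] at hS
    rw [e3, Complex.ofReal_zero, zero_mul]
    refine squeeze_zero_norm (fun r => norm_mul_xi_le (Sf_nonneg _ _ _) _ _) hS
  · have hx : ContinuousWithinAt (fun q : ℝ × Sp (a :: c) => xi q.1 (q.2 : Sp c × ℂ).2)
        (HS (a :: c)) q :=
      ((continuousAt_xiC hpos).comp (f := fun q : ℝ × Sp (a :: c) => (q.1, (q.2 : Sp c × ℂ).2))
        (continuous_fst.prodMk
          ((continuous_sndSp a c).comp continuous_snd)).continuousAt).continuousWithinAt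
    exact (Complex.continuous_ofReal.continuousAt.comp_continuousWithinAt hS).mul hx

/-- **Continuity of `Ph` in the scale and the point.** -/
theorem continuousOn_Ph {lam : ℝ} (hlam : 0 < lam) {c : List ℕ} (hc : ∀ a ∈ c, 2 ≤ a) :
    ContinuousOn (fun q : ℝ × Sp c => Ph lam c q.1 q.2) (Ici 0 ×ˢ univ) := by
  induction c with
  | nil => exact continuous_snd.continuousOn
  | cons a c ih =>
    have i1 := ih fun b hb => hc b (List.mem_cons_of_mem a hb)
    have k1 : ContinuousOn (fun q : ℝ × Sp (a :: c) =>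
        (fun r : ℝ × Sp c => Ph lam c r.1 r.2) (sD lam c (sA a c q))) (HS (a :: c)) :=
      i1.comp ((continuous_sD lam c).comp (continuous_sA a c)).continuousOn
        (fun q hq => mapsTo_sD hlam c (mapsTo_sA a c hq))
    exact k1.prodMk (continuousOn_hdPh hlam hc)

/-- `Ph` at a fixed scale `σ ≥ 0` is continuous. -/
theorem continuous_Ph {lam : ℝ} (hlam : 0 < lam) {c : List ℕ} (hc : ∀ a ∈ c, 2 ≤ a) {σ : ℝ}
    (hσ : 0 ≤ σ) : Continuous (Ph lam c σ) :=
  (continuousOn_Ph hlam hc).comp_continuous (continuous_const.prodMk continuous_id)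
    fun _ => ⟨hσ, mem_univ _⟩

/-- `Sf` at a fixed scale `σ ≥ 0` is continuous. -/
theorem continuous_Sf {lam : ℝ} (hlam : 0 < lam) {c : List ℕ} (hc : ∀ a ∈ c, 2 ≤ a) {σ : ℝ}
    (hσ : 0 ≤ σ) : Continuous (Sf lam c σ) :=
  (continuousOn_Sf hlam hc).comp_continuous (continuous_const.prodMk continuous_id)
    fun _ => ⟨hσ, mem_univ _⟩

/-- `Ph` at scale `0` is continuous. -/
theorem continuous_Ph0 {lam : ℝ} (hlam : 0 < lam) {c : List ℕ} (hc : ∀ a ∈ c, 2 ≤ a) :
    Continuous (Ph lam c 0) := continuous_Ph hlam hc le_rfl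

end Vale.Agent.P268.T
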