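import Vale.Agent.P268.T.H963.Scale

/-!
# P268, topological half, block P0: regularity of the coupling

`cpl lam 0 a y z = lk lam a y z`; `cpl_reg`: it is regular at every point with `z ≠ 0`, along a
direction `A` with `‖(A c).1‖ ≤ ‖c‖ / lam`, `‖(A c).2‖ ≤ ‖c‖`.
-/

set_option linter.unusedSectionVars false

namespace Vale.Agent.P268.T.P0

open Set Filter Topology

theorem hasStrict_norm {z₀ : ℂ} (hz : z₀ ≠ 0) :
    HasStrictFDerivAt (fun z : ℂ => ‖z‖) (‖z₀‖⁻¹ • (innerSL ℝ z₀ : ℂ →L[ℝ] ℝ)) z₀ := by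
  have h0 : ‖z₀‖ ≠ 0 := norm_ne_zero_iff.mpr hz
  have h1 := (hasStrictFDerivAt_norm_sq (F := ℂ) z₀).sqrt (by positivity)
  have h2 : (fun z : ℂ => ‖z‖) = fun z : ℂ => √(‖z‖ ^ 2) := by
    funext z; rw [Real.sqrt_sq (norm_nonneg z)]
  rw [h2]
  refine h1.congr_fderiv ?_
  rw [Real.sqrt_sq (norm_nonneg z₀)]
  ext h
  all_goals simp
  all_goals field_simp

theorem ph_eq (z : ℂ) : ph z = (‖z‖⁻¹ : ℝ) • z := by
  rw [ph, Complex.real_smul]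
  push_cast
  rw [div_eq_inv_mul]

/-- derivative of `ph` -/
noncomputable def dph (z₀ : ℂ) : ℂ →L[ℝ] ℂ :=
  ‖z₀‖⁻¹ • ContinuousLinearMap.id ℝ ℂ +
    (-(‖z₀‖ ^ 2)⁻¹ • (‖z₀‖⁻¹ • (innerSL ℝ z₀ : ℂ →L[ℝ] ℝ))).smulRight z₀

theorem hasStrict_ph {z₀ : ℂ} (hz : z₀ ≠ 0) : HasStrictFDerivAt ph (dph z₀) z₀ := by
  have h0 : ‖z₀‖ ≠ 0 := norm_ne_zero_iff.mpr hz
  have h1 : HasStrictFDerivAt (fun z : ℂ => ‖z‖⁻¹) (-(‖z₀‖ ^ 2)⁻¹ • (‖z₀‖⁻¹ • (innerSL ℝ z₀ : ℂ →L[ℝ] ℝ))) z₀ :=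
    (hasStrictDerivAt_inv h0).comp_hasStrictFDerivAt z₀ (hasStrict_norm hz)
  have h2 := h1.smul (hasStrictFDerivAt_id z₀)
  have h3 : ph = fun z : ℂ => (‖z‖⁻¹ : ℝ) • id z := by
    funext z; exact ph_eq z
  rw [h3]
  exact h2

theorem inner_mul_ph {z₀ : ℂ} (hz : z₀ ≠ 0) (ρ : ℂ) : inner ℝ z₀ (ρ * ph z₀) = ρ.re * ‖z₀‖ := by
  have h0 : ‖z₀‖ ≠ 0 := norm_ne_zero_iff.mpr hz
  have h1 : ρ * ph z₀ * (starRingEnd ℂ) z₀ = ρ * ((‖z₀‖ : ℝ) : ℂ) := by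
    rw [ph, mul_assoc, div_mul_eq_mul_div, Complex.mul_conj, Complex.normSq_eq_norm_sq]
    congr 1
    have : ((‖z₀‖ : ℝ) : ℂ) ≠ 0 := by exact_mod_cast h0
    push_cast
    field_simp
  rw [Complex.inner, h1, Complex.re_mul_ofReal]

theorem dnorm_ph {z₀ : ℂ} (hz : z₀ ≠ 0) (ρ : ℂ) :
    (‖z₀‖⁻¹ • (innerSL ℝ z₀ : ℂ →L[ℝ] ℝ)) (ρ * ph z₀) = ρ.re := by
  have h0 : ‖z₀‖ ≠ 0 := norm_ne_zero_iff.mpr hz
  rw [_root_.smul_apply, innerSL_apply_apply, inner_mul_ph hz, smul_eq_mul]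
  field_simp

theorem dph_ph {z₀ : ℂ} (hz : z₀ ≠ 0) (ρ : ℂ) :
    dph z₀ (ρ * ph z₀) = ((ρ.im / ‖z₀‖ : ℝ) : ℂ) * Complex.I * ph z₀ := by
  have h0 : ‖z₀‖ ≠ 0 := norm_ne_zero_iff.mpr hz
  have h1 : ((‖z₀‖ : ℝ) : ℂ) ≠ 0 := by exact_mod_cast h0
  have h2 : dph z₀ (ρ * ph z₀) = (‖z₀‖⁻¹ : ℝ) • (ρ * ph z₀) +
      (-(‖z₀‖ ^ 2)⁻¹ * (‖z₀‖⁻¹ • (innerSL ℝ z₀ : ℂ →L[ℝ] ℝ)) (ρ * ph z₀) : ℝ) • z₀ := rfl
  rw [h2, dnorm_ph hz, Complex.real_smul, Complex.real_smul, ph]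
  have h3 : ρ = ρ.re + ρ.im * Complex.I := (Complex.re_add_im ρ).symm
  push_cast
  field_simp
  linear_combination h3

theorem norm_ph {z : ℂ} (hz : z ≠ 0) : ‖ph z‖ = 1 := by
  have h0 : ‖z‖ ≠ 0 := norm_ne_zero_iff.mpr hz
  rw [ph, norm_div, Complex.norm_real, norm_norm, div_self h0]

theorem norm_ph_le (z : ℂ) : ‖ph z‖ ≤ 1 := by
  rcases eq_or_ne z 0 with rfl | h
  · simp [ph]
  · exact (norm_ph h).le

theorem norm_mul_ph (z : ℂ) : ((‖z‖ : ℝ) : ℂ) * ph z = z := by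
  rcases eq_or_ne z 0 with rfl | h
  · simp [ph]
  · have : ((‖z‖ : ℝ) : ℂ) ≠ 0 := by exact_mod_cast norm_ne_zero_iff.mpr h
    rw [ph, mul_div_cancel₀ _ this]


theorem strict_incr {E V : Type*} [NormedAddCommGroup E] [NormedSpace ℝ E]
    [NormedAddCommGroup V] [NormedSpace ℝ V] {φ : E → V} {φ' : E →L[ℝ] V} {q₀ : E}
    (h : HasStrictFDerivAt φ φ' q₀) (A : ℂ →L[ℝ] E) {ε : ℝ} (hε : 0 < ε) :
    ∃ U ∈ 𝓝 q₀, ∀ q ∈ U, ∀ c, q + A c ∈ U →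
      ‖φ (q + A c) - φ q - φ' (A c)‖ ≤ ε * ‖c‖ := by
  have hA : 0 < ‖A‖ + 1 := by positivity
  have h1 := h.isLittleO.def (div_pos hε hA)
  rw [nhds_prod_eq] at h1
  obtain ⟨t, ht, hU⟩ := mem_prod_same_iff.mp h1
  refine ⟨t, ht, fun q hq c hc => ?_⟩
  have h2 : ‖φ (q + A c) - φ q - φ' (q + A c - q)‖ ≤ ε / (‖A‖ + 1) * ‖q + A c - q‖ :=
    hU (mk_mem_prod hc hq)
  rw [add_sub_cancel_left] at h2
  refine h2.trans ?_
  calc ε / (‖A‖ + 1) * ‖A c‖ ≤ ε / (‖A‖ + 1) * ((‖A‖ + 1) * ‖c‖) := by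
        refine mul_le_mul_of_nonneg_left ?_ (div_pos hε hA).le
        exact (A.le_opNorm c).trans (mul_le_mul_of_nonneg_right (by linarith) (norm_nonneg _))
    _ = ε * ‖c‖ := by field_simp

theorem min_incr' {a b a' b' w e : ℝ} (h1 : |a' - a - w| ≤ e) (h2 : |b' - b - w| ≤ e) :
    |min a' b' - min a b - w| ≤ e := by
  rw [abs_le] at *
  constructor
  · rcases le_total a' b' with h | h <;> rcases le_total a b with h' | h' <;>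
      simp only [min_eq_left h, min_eq_right h, min_eq_left h', min_eq_right h'] <;> linarith
  · rcases le_total a' b' with h | h <;> rcases le_total a b with h' | h' <;>
      simp only [min_eq_left h, min_eq_right h, min_eq_left h', min_eq_right h'] <;> linarith

theorem cpl_zero_eq {lam : ℝ} (hlam : 0 < lam) (a : ℕ) (y z : ℂ) :
    cpl lam 0 a y z = ((min ‖z‖ (lam * ‖y‖) : ℝ) : ℂ) * (ph z ^ a * ph y) := by
  rw [cpl, sc_zero_left, xi_zero_left]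
  have h1 : ((‖z‖ : ℝ) : ℂ) * xi (‖z‖ / lam) y = ((min ‖z‖ (lam * ‖y‖) : ℝ) : ℂ) * ph y := by
    rw [xi, sc]
    conv_lhs => rw [← norm_mul_ph y]
    rw [norm_mul, norm_mul_ph]
    rcases eq_or_ne y 0 with rfl | hy
    · simp [ph]
    have hy' : 0 < ‖y‖ := norm_pos_iff.mpr hy
    have e1 : ‖ph y‖ = 1 := norm_ph hy
    rw [Complex.norm_real, norm_norm, e1, mul_one]
    rcases le_total (‖z‖ / lam) ‖y‖ with h | h
    · have h' : ‖z‖ ≤ lam * ‖y‖ := by rwa [div_le_iff₀ hlam, mul_comm] at h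
      rw [max_eq_left h, min_eq_left h']
      have : ((‖y‖ : ℝ) : ℂ) ≠ 0 := by exact_mod_cast hy'.ne'
      field_simp
      rw [mul_assoc, norm_mul_ph]
    · have h' : lam * ‖y‖ ≤ ‖z‖ := by rwa [le_div_iff₀ hlam, mul_comm] at h
      rw [max_eq_right h, min_eq_right h']
      have hz' : 0 < ‖z‖ := by
        have : 0 < lam * ‖y‖ := mul_pos hlam hy'
        linarith
      have h2 : ((‖z‖ : ℝ) : ℂ) ≠ 0 := by exact_mod_cast hz'.ne'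
      have h3 : (lam : ℂ) ≠ 0 := by exact_mod_cast hlam.ne'
      push_cast
      field_simp
      exact (norm_mul_ph y).symm
  calc ((‖z‖ : ℝ) : ℂ) * ph z ^ a * xi (‖z‖ / lam) y
      = (((‖z‖ : ℝ) : ℂ) * xi (‖z‖ / lam) y) * ph z ^ a := by ring
    _ = _ := by rw [h1]; ring

theorem cpl_zero_lk {lam : ℝ} (hlam : 0 < lam) (a : ℕ) (y z : ℂ) :
    cpl lam 0 a y z = lk lam a y z := by
  rw [cpl_zero_eq hlam, lk, mul_comm (ph y)]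


/-- The coupling is regular at all points `z ≠ 0`, along directions of controlled size. -/
theorem cpl_reg {lam : ℝ} (hlam : 0 < lam) {a : ℕ} (ha : a ≠ 0) (y₀ : ℂ) {z₀ : ℂ} (hz : z₀ ≠ 0) :
    ∃ A : ℂ →L[ℝ] ℂ × ℂ, (∀ c, ‖(A c).1‖ ≤ lam⁻¹ * ‖c‖) ∧ (∀ c, ‖(A c).2‖ ≤ ‖c‖) ∧
      ∃ U ∈ 𝓝 (y₀, z₀), MRegOn (1 / 4) (fun q : ℂ × ℂ => cpl lam 0 a q.1 q.2) A U := by
  have hlamC : (lam : ℂ) ≠ 0 := by exact_mod_cast hlam.ne'
  have hz' : 0 < ‖z₀‖ := norm_pos_iff.mpr hz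
  have hphz : ph z₀ ≠ 0 := by
    intro h
    have := norm_ph hz
    rw [h, norm_zero] at this
    exact zero_ne_one this
  have hcph : ContinuousAt ph z₀ := (hasStrict_ph hz).hasFDerivAt.continuousAt
  by_cases hcore : lam * ‖y₀‖ < ‖z₀‖
  · -- the core: linear in `y`
    set w₀ : ℂ := (lam : ℂ)⁻¹ * (ph z₀ ^ a)⁻¹ with hw₀
    have hnw : ‖w₀‖ = lam⁻¹ := by
      rw [hw₀, norm_mul, norm_inv, norm_inv, norm_pow, norm_ph hz, one_pow, inv_one, mul_one,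
        Complex.norm_real, Real.norm_eq_abs, abs_of_pos hlam]
    refine ⟨(ContinuousLinearMap.inl ℝ ℂ ℂ).comp (ContinuousLinearMap.mul ℝ ℂ w₀), fun c => ?_,
      fun c => ?_, {q | lam * ‖q.1‖ < ‖q.2‖ ∧ ‖ph q.2 ^ a * (ph z₀ ^ a)⁻¹ - 1‖ < 1 / 4}, ?_, ?_⟩
    · show ‖w₀ * c‖ ≤ _
      rw [norm_mul, hnw]
    · show ‖(0 : ℂ)‖ ≤ _
      rw [norm_zero]
      exact norm_nonneg c
    · refine Filter.inter_mem ?_ ?_
      · exact (continuousAt_const.mul continuousAt_fst.norm).eventually_lt continuousAt_snd.norm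
          hcore
      · have h1 : ContinuousAt (fun q : ℂ × ℂ => ‖ph q.2 ^ a * (ph z₀ ^ a)⁻¹ - 1‖) (y₀, z₀) := by
          have h2 : ContinuousAt (fun q : ℂ × ℂ => ph q.2) (y₀, z₀) :=
            ContinuousAt.comp (g := ph) (f := Prod.snd) hcph continuousAt_snd
          exact (((h2.pow a).mul continuousAt_const).sub continuousAt_const).norm
        have h3 : ‖ph z₀ ^ a * (ph z₀ ^ a)⁻¹ - 1‖ < 1 / 4 := by
          rw [mul_inv_cancel₀ (pow_ne_zero _ hphz), sub_self, norm_zero]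
          norm_num
        exact h1.eventually (gt_mem_nhds h3)
    · rintro ⟨y, z⟩ ⟨h1, h2⟩ c ⟨h3, -⟩
      have e1 : ((y, z) : ℂ × ℂ) + (ContinuousLinearMap.inl ℝ ℂ ℂ).comp
          (ContinuousLinearMap.mul ℝ ℂ w₀) c = (y + w₀ * c, z) := by
        ext <;> simp
      rw [e1] at h3 ⊢
      show ‖cpl lam 0 a (y + w₀ * c) z - cpl lam 0 a y z - c‖ ≤ _
      have e2 : ∀ y, lam * ‖y‖ < ‖z‖ → cpl lam 0 a y z = lam * (ph z ^ a * y) := by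
        intro y hy
        rw [cpl_zero_eq hlam, min_eq_right hy.le]
        conv_rhs => rw [← norm_mul_ph y]
        push_cast
        ring
      rw [e2 _ h1, e2 _ h3]
      have e3 : (lam : ℂ) * (ph z ^ a * (y + w₀ * c)) - lam * (ph z ^ a * y) - c =
          (ph z ^ a * (ph z₀ ^ a)⁻¹ - 1) * c := by
        rw [hw₀]
        field_simp
        ring
      rw [e3, norm_mul]
      exact mul_le_mul_of_nonneg_right h2.le (norm_nonneg c)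
  · -- outside the core
    have hy : y₀ ≠ 0 := by
      rintro rfl
      rw [norm_zero, mul_zero] at hcore
      exact hcore hz'
    push Not at hcore
    have hphy : ph y₀ ≠ 0 := by
      intro h
      have := norm_ph hy
      rw [h, norm_zero] at this
      exact zero_ne_one this
    set ψ₀ : ℂ := ph z₀ ^ a * ph y₀ with hψ₀
    have hψn : ‖ψ₀‖ = 1 := by rw [hψ₀, norm_mul, norm_pow, norm_ph hz, norm_ph hy, one_pow, mul_one]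
    have hψ0 : ψ₀ ≠ 0 := mul_ne_zero (pow_ne_zero _ hphz) hphy
    have haC : (a : ℂ) ≠ 0 := by exact_mod_cast ha
    have haR : (1 : ℝ) ≤ a := by exact_mod_cast Nat.one_le_iff_ne_zero.mpr ha
    let m : ℂ →L[ℝ] ℂ := ContinuousLinearMap.mul ℝ ℂ ψ₀⁻¹
    let A1 : ℂ →L[ℝ] ℂ := (Complex.reCLM.comp m).smulRight ((lam : ℂ)⁻¹ * ph y₀)
    let A2 : ℂ →L[ℝ] ℂ := (Complex.reCLM.comp m).smulRight (ph z₀) +
      (Complex.imCLM.comp m).smulRight ((a : ℂ)⁻¹ * Complex.I * ph z₀)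
    have hA1 : ∀ c, A1 c = (((ψ₀⁻¹ * c).re / lam : ℝ) : ℂ) * ph y₀ := by
      intro c
      show (ψ₀⁻¹ * c).re • ((lam : ℂ)⁻¹ * ph y₀) = _
      rw [Complex.real_smul]
      push_cast
      ring
    have hA2 : ∀ c, A2 c = (((ψ₀⁻¹ * c).re : ℂ) + (((ψ₀⁻¹ * c).im / a : ℝ) : ℂ) * Complex.I) *
        ph z₀ := by
      intro c
      show (ψ₀⁻¹ * c).re • (ph z₀) + (ψ₀⁻¹ * c).im • ((a : ℂ)⁻¹ * Complex.I * ph z₀) = _
      rw [Complex.real_smul, Complex.real_smul]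
      push_cast
      ring
    have hnw : ∀ c, ‖ψ₀⁻¹ * c‖ = ‖c‖ := fun c => by
      rw [norm_mul, norm_inv, hψn, inv_one, one_mul]
    have hre : ∀ c, |(ψ₀⁻¹ * c).re| ≤ ‖c‖ := fun c =>
      (Complex.abs_re_le_norm _).trans (hnw c).le
    have him : ∀ c, |(ψ₀⁻¹ * c).im| ≤ ‖c‖ := fun c =>
      (Complex.abs_im_le_norm _).trans (hnw c).le
    refine ⟨A1.prod A2, fun c => ?_, fun c => ?_, ?_⟩
    · show ‖A1 c‖ ≤ _
      rw [hA1, norm_mul, norm_ph hy, mul_one, Complex.norm_real, Real.norm_eq_abs, abs_div,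
        abs_of_pos hlam, div_eq_inv_mul]
      exact mul_le_mul_of_nonneg_left (hre c) (inv_nonneg.mpr hlam.le)
    · show ‖A2 c‖ ≤ _
      rw [hA2, norm_mul, norm_ph hz, mul_one, Complex.norm_add_mul_I, ← hnw c,
        Complex.norm_eq_sqrt_sq_add_sq]
      refine Real.sqrt_le_sqrt (add_le_add le_rfl ?_)
      rw [div_pow]
      exact div_le_self (sq_nonneg _) (one_le_pow₀ haR)
    set ε : ℝ := 1 / (4 * (3 + ‖z₀‖ + 1 / ‖z₀‖)) with hε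
    have hε0 : 0 < ε := by positivity
    have hε1 : ε ≤ 1 := by
      rw [hε, div_le_one (by positivity)]
      have : 0 < 1 / ‖z₀‖ := by positivity
      linarith
    -- the three increments
    have hf : HasStrictFDerivAt (fun q : ℂ × ℂ => ‖q.2‖)
        ((‖z₀‖⁻¹ • (innerSL ℝ z₀ : ℂ →L[ℝ] ℝ)).comp (ContinuousLinearMap.snd ℝ ℂ ℂ)) (y₀, z₀) :=
      HasStrictFDerivAt.comp (g := fun z : ℂ => ‖z‖) (f := Prod.snd) (y₀, z₀) (hasStrict_norm hz)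
        hasStrictFDerivAt_snd
    have hg : HasStrictFDerivAt (fun q : ℂ × ℂ => ‖q.1‖)
        ((‖y₀‖⁻¹ • (innerSL ℝ y₀ : ℂ →L[ℝ] ℝ)).comp (ContinuousLinearMap.fst ℝ ℂ ℂ)) (y₀, z₀) :=
      HasStrictFDerivAt.comp (g := fun z : ℂ => ‖z‖) (f := Prod.fst) (y₀, z₀) (hasStrict_norm hy)
        hasStrictFDerivAt_fst
    have hp1 : HasStrictFDerivAt (fun q : ℂ × ℂ => ph q.1)
        ((dph y₀).comp (ContinuousLinearMap.fst ℝ ℂ ℂ)) (y₀, z₀) :=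
      HasStrictFDerivAt.comp (g := ph) (f := Prod.fst) (y₀, z₀) (hasStrict_ph hy)
        hasStrictFDerivAt_fst
    have hp2 : HasStrictFDerivAt (fun q : ℂ × ℂ => ph q.2)
        ((dph z₀).comp (ContinuousLinearMap.snd ℝ ℂ ℂ)) (y₀, z₀) :=
      HasStrictFDerivAt.comp (g := ph) (f := Prod.snd) (y₀, z₀) (hasStrict_ph hz)
        hasStrictFDerivAt_snd
    have hψ := (hp2.pow a).mul hp1
    obtain ⟨U1, hU1, hU1'⟩ := strict_incr hf (A1.prod A2) hε0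
    obtain ⟨U2, hU2, hU2'⟩ := strict_incr hg (A1.prod A2) (div_pos hε0 hlam)
    obtain ⟨U3, hU3, hU3'⟩ := strict_incr hψ (A1.prod A2) hε0
    have hd1 : ∀ c, ((‖z₀‖⁻¹ • (innerSL ℝ z₀ : ℂ →L[ℝ] ℝ)).comp (ContinuousLinearMap.snd ℝ ℂ ℂ))
        ((A1.prod A2) c) = (ψ₀⁻¹ * c).re := by
      intro c
      show (‖z₀‖⁻¹ • (innerSL ℝ z₀ : ℂ →L[ℝ] ℝ)) (A2 c) = _
      rw [hA2, dnorm_ph hz]
      simp
    have hd2 : ∀ c, ((‖y₀‖⁻¹ • (innerSL ℝ y₀ : ℂ →L[ℝ] ℝ)).comp (ContinuousLinearMap.fst ℝ ℂ ℂ))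
        ((A1.prod A2) c) = (ψ₀⁻¹ * c).re / lam := by
      intro c
      show (‖y₀‖⁻¹ • (innerSL ℝ y₀ : ℂ →L[ℝ] ℝ)) (A1 c) = _
      rw [hA1, dnorm_ph hy, Complex.ofReal_re]
    have hd3 : ∀ c, dph y₀ (A1 c) = 0 := by
      intro c
      rw [hA1, dph_ph hy, Complex.ofReal_im]
      simp
    have hd4 : ∀ c, dph z₀ (A2 c) =
        (((ψ₀⁻¹ * c).im / a / ‖z₀‖ : ℝ) : ℂ) * Complex.I * ph z₀ := by
      intro c
      rw [hA2, dph_ph hz]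
      congr 4
      simp
    set m : ℂ × ℂ → ℝ := fun q => min ‖q.2‖ (lam * ‖q.1‖) with hm
    set ψ : ℂ × ℂ → ℂ := fun q => ph q.2 ^ a * ph q.1 with hψdef
    have hmc : ContinuousAt m (y₀, z₀) :=
      (continuous_snd.norm.min (continuous_const.mul continuous_fst.norm)).continuousAt
    have hm0 : m (y₀, z₀) = ‖z₀‖ := min_eq_left hcore
    have hψc : ContinuousAt ψ (y₀, z₀) := hψ.hasFDerivAt.continuousAt
    have hV1 : {q | |m q - ‖z₀‖| < ε} ∈ 𝓝 (y₀, z₀) := by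
      have h1 : ContinuousAt (fun q => |m q - ‖z₀‖|) (y₀, z₀) := (hmc.sub continuousAt_const).abs
      refine h1.eventually (gt_mem_nhds ?_)
      show |m (y₀, z₀) - ‖z₀‖| < ε
      rw [hm0, sub_self, abs_zero]
      exact hε0
    have hV2 : {q | ‖ψ q - ψ₀‖ < ε} ∈ 𝓝 (y₀, z₀) := by
      have h1 : ContinuousAt (fun q => ‖ψ q - ψ₀‖) (y₀, z₀) := (hψc.sub continuousAt_const).norm
      refine h1.eventually (gt_mem_nhds ?_)
      show ‖ph z₀ ^ a * ph y₀ - ψ₀‖ < ε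
      rw [← hψ₀, sub_self, norm_zero]
      exact hε0
    refine ⟨U1 ∩ U2 ∩ U3 ∩ ({q | |m q - ‖z₀‖| < ε} ∩ {q | ‖ψ q - ψ₀‖ < ε}),
      inter_mem (inter_mem (inter_mem hU1 hU2) hU3) (inter_mem hV1 hV2), ?_⟩
    intro q hq c hc
    have e1 := hU1' q hq.1.1.1 c hc.1.1.1
    have e2 := hU2' q hq.1.1.2 c hc.1.1.2
    have e3 := hU3' q hq.1.2 c hc.1.2
    rw [hd1, Real.norm_eq_abs] at e1
    rw [hd2, Real.norm_eq_abs] at e2
    have e4 : |m (q + (A1.prod A2) c) - m q - (ψ₀⁻¹ * c).re| ≤ ε * ‖c‖ := by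
      refine min_incr' e1 ?_
      have : lam * ‖(q + (A1.prod A2) c).1‖ - lam * ‖q.1‖ - (ψ₀⁻¹ * c).re =
          lam * (‖(q + (A1.prod A2) c).1‖ - ‖q.1‖ - (ψ₀⁻¹ * c).re / lam) := by
        field_simp
      rw [this, abs_mul, abs_of_pos hlam]
      calc lam * |‖(q + (A1.prod A2) c).1‖ - ‖q.1‖ - (ψ₀⁻¹ * c).re / lam|
          ≤ lam * (ε / lam * ‖c‖) := mul_le_mul_of_nonneg_left e2 hlam.le
        _ = ε * ‖c‖ := by field_simp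
    have e5 : ‖ψ (q + (A1.prod A2) c) - ψ q -
        (((ψ₀⁻¹ * c).im / ‖z₀‖ : ℝ) : ℂ) * Complex.I * ψ₀‖ ≤ ε * ‖c‖ := by
      have h1 : ((ph z₀ ^ a) • ((dph y₀).comp (ContinuousLinearMap.fst ℝ ℂ ℂ)) +
          ph y₀ • ((a • ph z₀ ^ (a - 1)) • ((dph z₀).comp (ContinuousLinearMap.snd ℝ ℂ ℂ))))
          ((A1.prod A2) c) = (((ψ₀⁻¹ * c).im / ‖z₀‖ : ℝ) : ℂ) * Complex.I * ψ₀ := by
        show ph z₀ ^ a * dph y₀ (A1 c) + ph y₀ * ((a • ph z₀ ^ (a - 1)) * dph z₀ (A2 c)) = _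
        rw [hd3, hd4, nsmul_eq_mul, hψ₀]
        have h2 : ph z₀ ^ a = ph z₀ ^ (a - 1) * ph z₀ := by
          rw [← pow_succ, Nat.sub_add_cancel (Nat.one_le_iff_ne_zero.mpr ha)]
        rw [h2]
        push_cast
        field_simp
        ring
      rw [← h1]
      exact e3
    have e6 : ‖ψ (q + (A1.prod A2) c)‖ ≤ 1 := by
      show ‖ph _ ^ a * ph _‖ ≤ 1
      rw [norm_mul, norm_pow]
      exact mul_le_one₀ (pow_le_one₀ (norm_nonneg _) (norm_ph_le _)) (norm_nonneg _)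
        (norm_ph_le _)
    have e7 : c = ((ψ₀⁻¹ * c).re : ℂ) * ψ₀ + ((ψ₀⁻¹ * c).im : ℂ) * Complex.I * ψ₀ := by
      have h1 : ψ₀⁻¹ * c * ψ₀ = c := by field_simp
      have h2 := Complex.re_add_im (ψ₀⁻¹ * c)
      linear_combination -h1 - ψ₀ * h2
    have e8 : cpl lam 0 a (q + (A1.prod A2) c).1 (q + (A1.prod A2) c).2 -
        cpl lam 0 a q.1 q.2 - c =
        ((m (q + (A1.prod A2) c) - m q - (ψ₀⁻¹ * c).re : ℝ) : ℂ) * ψ (q + (A1.prod A2) c) +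
        ((ψ₀⁻¹ * c).re : ℂ) * (ψ (q + (A1.prod A2) c) - ψ₀) +
        (m q : ℂ) * (ψ (q + (A1.prod A2) c) - ψ q -
          (((ψ₀⁻¹ * c).im / ‖z₀‖ : ℝ) : ℂ) * Complex.I * ψ₀) +
        ((m q - ‖z₀‖ : ℝ) : ℂ) * ((((ψ₀⁻¹ * c).im / ‖z₀‖ : ℝ) : ℂ) * Complex.I * ψ₀) := by
      rw [cpl_zero_eq hlam, cpl_zero_eq hlam]
      show (m (q + (A1.prod A2) c) : ℂ) * ψ (q + (A1.prod A2) c) - (m q : ℂ) * ψ q - c = _
      have hz'' : ((‖z₀‖ : ℝ) : ℂ) ≠ 0 := by exact_mod_cast hz'.ne'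
      have h3 : ((‖z₀‖ : ℝ) : ℂ) * (((ψ₀⁻¹ * c).im / ‖z₀‖ : ℝ) : ℂ) = ((ψ₀⁻¹ * c).im : ℂ) := by
        push_cast
        field_simp
      push_cast at h3 ⊢
      linear_combination (-1) * e7 + Complex.I * ψ₀ * h3
    show ‖cpl lam 0 a (q + (A1.prod A2) c).1 (q + (A1.prod A2) c).2 -
        cpl lam 0 a q.1 q.2 - c‖ ≤ _
    rw [e8]
    have b1 : ‖((m (q + (A1.prod A2) c) - m q - (ψ₀⁻¹ * c).re : ℝ) : ℂ) *
        ψ (q + (A1.prod A2) c)‖ ≤ ε * ‖c‖ := by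
      rw [norm_mul, Complex.norm_real, Real.norm_eq_abs]
      exact (mul_le_of_le_one_right (abs_nonneg _) e6).trans e4
    have b2 : ‖((ψ₀⁻¹ * c).re : ℂ) * (ψ (q + (A1.prod A2) c) - ψ₀)‖ ≤ ε * ‖c‖ := by
      rw [norm_mul, Complex.norm_real, Real.norm_eq_abs, mul_comm ε]
      exact mul_le_mul (hre c) hc.2.2.le (norm_nonneg _) (norm_nonneg _)
    have b3 : ‖(m q : ℂ) * (ψ (q + (A1.prod A2) c) - ψ q -
          (((ψ₀⁻¹ * c).im / ‖z₀‖ : ℝ) : ℂ) * Complex.I * ψ₀)‖ ≤ (‖z₀‖ + 1) * (ε * ‖c‖) := by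
      rw [norm_mul, Complex.norm_real, Real.norm_eq_abs]
      refine mul_le_mul ?_ e5 (norm_nonneg _) (by positivity)
      have h4 : |m q - ‖z₀‖| < ε := hq.2.1
      have h5 : 0 ≤ m q := le_min (norm_nonneg _) (by positivity)
      rw [abs_of_nonneg h5]
      have := (abs_lt.mp h4).2
      linarith
    have b4 : ‖((m q - ‖z₀‖ : ℝ) : ℂ) * ((((ψ₀⁻¹ * c).im / ‖z₀‖ : ℝ) : ℂ) * Complex.I * ψ₀)‖ ≤
        1 / ‖z₀‖ * (ε * ‖c‖) := by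
      rw [norm_mul, norm_mul, norm_mul, Complex.norm_I, hψn, Complex.norm_real, Complex.norm_real,
        Real.norm_eq_abs, Real.norm_eq_abs, mul_one, mul_one, abs_div, abs_of_pos hz']
      have h4 : |m q - ‖z₀‖| ≤ ε := hq.2.1.le
      calc |m q - ‖z₀‖| * (|(ψ₀⁻¹ * c).im| / ‖z₀‖) ≤ ε * (‖c‖ / ‖z₀‖) :=
            mul_le_mul h4 (div_le_div_of_nonneg_right (him c) hz'.le) (by positivity) hε0.le
        _ = 1 / ‖z₀‖ * (ε * ‖c‖) := by field_simp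
    have b5 : ε * ‖c‖ + ε * ‖c‖ + (‖z₀‖ + 1) * (ε * ‖c‖) + 1 / ‖z₀‖ * (ε * ‖c‖) =
        1 / 4 * ‖c‖ := by
      have h6 : ε * (3 + ‖z₀‖ + 1 / ‖z₀‖) = 1 / 4 := by
        have : 0 < 3 + ‖z₀‖ + 1 / ‖z₀‖ := by positivity
        rw [hε]
        field_simp
      calc _ = (ε * (3 + ‖z₀‖ + 1 / ‖z₀‖)) * ‖c‖ := by ring
        _ = _ := by rw [h6]
    calc _ ≤ ε * ‖c‖ + ε * ‖c‖ + (‖z₀‖ + 1) * (ε * ‖c‖) + 1 / ‖z₀‖ * (ε * ‖c‖) := by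
          refine (norm_add_le _ _).trans (add_le_add ?_ b4)
          refine (norm_add_le _ _).trans (add_le_add ?_ b3)
          exact (norm_add_le _ _).trans (add_le_add b1 b2)
      _ = _ := b5

/-- The one variable loop is regular off the origin. -/
theorem single_strict {a : ℕ} (ha : a ≠ 0) {z₀ : ℂ} (hz : z₀ ≠ 0) :
    ∃ F' : ℂ →L[ℝ] ℂ, Function.Surjective F' ∧
      HasStrictFDerivAt (fun z : ℂ => ((‖z‖ : ℝ) : ℂ) * ph z ^ a) F' z₀ := by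
  have hz' : 0 < ‖z₀‖ := norm_pos_iff.mpr hz
  have hphz : ph z₀ ≠ 0 := by
    intro h
    have := norm_ph hz
    rw [h, norm_zero] at this
    exact zero_ne_one this
  have h1 : HasStrictFDerivAt (fun z : ℂ => ((‖z‖ : ℝ) : ℂ))
      (Complex.ofRealCLM.comp (‖z₀‖⁻¹ • (innerSL ℝ z₀ : ℂ →L[ℝ] ℝ))) z₀ :=
    Complex.ofRealCLM.hasStrictFDerivAt.comp z₀ (hasStrict_norm hz)
  have h2 := h1.mul ((hasStrict_ph hz).pow a)
  refine ⟨_, fun c => ?_, h2⟩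
  have haC : (a : ℂ) ≠ 0 := by exact_mod_cast ha
  have hzC : ((‖z₀‖ : ℝ) : ℂ) ≠ 0 := by exact_mod_cast hz'.ne'
  obtain ⟨w, hw⟩ : ∃ w : ℂ, c = ph z₀ ^ a * w :=
    ⟨(ph z₀ ^ a)⁻¹ * c, by rw [mul_inv_cancel_left₀ (pow_ne_zero _ hphz)]⟩
  obtain ⟨ρ, hρ1, hρ2⟩ : ∃ ρ : ℂ, ρ.re = w.re ∧ ρ.im = w.im / a :=
    ⟨⟨w.re, w.im / a⟩, rfl, rfl⟩
  refine ⟨ρ * ph z₀, ?_⟩
  have h3 : ph z₀ ^ a = ph z₀ ^ (a - 1) * ph z₀ := by
    rw [← pow_succ, Nat.sub_add_cancel (Nat.one_le_iff_ne_zero.mpr ha)]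
  have key : ((‖z₀‖ : ℝ) : ℂ) * (((a : ℂ) * ph z₀ ^ (a - 1)) *
      (((ρ.im / ‖z₀‖ : ℝ) : ℂ) * Complex.I * ph z₀)) + ph z₀ ^ a * ((ρ.re : ℝ) : ℂ) = c := by
    have h5 := Complex.re_add_im w
    rw [hρ1, hρ2, hw, h3]
    push_cast
    field_simp
    linear_combination h5
  rw [← key, ← dnorm_ph hz ρ, ← dph_ph hz ρ, ← nsmul_eq_mul]
  rfl

/-- A strictly differentiable function with surjective derivative is regular. -/
theorem regAt_of_hasStrict {T E : Type*} [TopologicalSpace T] [NormedAddCommGroup E]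
    [NormedSpace ℝ E] {F : E → ℂ} {F' : E →L[ℝ] ℂ} {x₀ : E} (h : HasStrictFDerivAt F F' x₀)
    (hF' : Function.Surjective F') (s : Set T) (t : T) : RegAt s (fun _ => F) t x₀ := by
  refine RegAt.of_strict F' hF' fun ε hε => ?_
  have h1 := h.isLittleO.def hε
  rw [nhds_prod_eq] at h1
  obtain ⟨U, hU, hU'⟩ := mem_prod_same_iff.mp h1
  have h2 : ∀ y ∈ U, ∀ z ∈ U, ‖F y - F z - F' (y - z)‖ ≤ ε * ‖y - z‖ :=
    fun y hy z hz => hU' (mk_mem_prod hy hz)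
  exact ⟨U, hU, Eventually.of_forall fun _ => h2⟩

theorem single_reg {T : Type*} [TopologicalSpace T] {a : ℕ} (ha : a ≠ 0) {z₀ : ℂ} (hz : z₀ ≠ 0)
    (s : Set T) (t : T) :
    RegAt s (fun (_ : T) (z : ℂ) => ((‖z‖ : ℝ) : ℂ) * ph z ^ a) t z₀ := by
  obtain ⟨F', hF', h⟩ := single_strict ha hz
  exact regAt_of_hasStrict h hF' s t

end Vale.Agent.P268.T.P0
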