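import Vale.Agent.P268.T.H963.PathReg
import Vale.Agent.P268.T.H963.Bij
import Vale.Agent.P268.T.H963.ContPh

/-!
# P268, topological half, block P0: local scale coordinates are a homeomorphism

Equivariance and properness; `hEqv_P_Ls_of`: the passage from the chain polynomial, given
bijectivity and continuity of `Ph`.
-/

set_option linter.unusedSectionVars false

namespace Vale.Agent.P268.T.P0

open Set Filter Topology Vale.Agent.P268.Z

theorem Sf_smul {lam : ℝ} {c : List ℕ} (hc : ∀ a ∈ c, 2 ≤ a) {r : ℝ} (hr : 0 < r) (σ : ℝ)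
    (p : Sp c) : Sf lam c (r * σ) (r • p) = r ^ headWt c * Sf lam c σ p := by
  induction c generalizing σ with
  | nil => rw [Sf_nil, Sf_nil, headWt, Real.rpow_zero, one_mul]
  | cons a c ih =>
    obtain ⟨X, z⟩ := (p : Sp c × ℂ)
    have hc' : ∀ b ∈ c, 2 ≤ b := fun b hb => hc b (List.mem_cons_of_mem a hb)
    show (sc (r * σ) (r • z) / Sf lam c (sc (r * σ) (r • z) / lam) (r • X)) ^ ((a : ℝ)⁻¹) =
      r ^ headWt (a :: c) * (sc σ z / Sf lam c (sc σ z / lam) X) ^ ((a : ℝ)⁻¹)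
    have e : r * sc σ z / lam = r * (sc σ z / lam) := mul_div_assoc _ _ _
    rw [sc_smul hr.le, e, ih hc', mul_div_mul_comm,
      Real.mul_rpow (div_nonneg hr.le (Real.rpow_nonneg hr.le _))
        (div_nonneg (sc_nonneg _) (Sf_nonneg _ _ _))]
    congr 1
    have h1 : r / r ^ headWt c = r ^ (1 - headWt c) := by
      rw [Real.rpow_sub hr, Real.rpow_one]
    rw [h1, ← Real.rpow_mul hr.le, headWt, div_eq_mul_inv]

/-- The weighted scaling. -/
noncomputable def Dw : ∀ c : List ℕ, ℝ → Sp c → Sp c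
  | [], _, p => p
  | a :: c, r, p => ((Dw c r p.1, (r ^ headWt (a :: c) : ℝ) • p.2) : Sp c × ℂ)

theorem Dw_cons (a : ℕ) (c : List ℕ) (r : ℝ) (p : Sp c × ℂ) :
    Dw (a :: c) r p = ((Dw c r p.1, (r ^ headWt (a :: c) : ℝ) • p.2) : Sp c × ℂ) := rfl

theorem Ph_smul {lam : ℝ} {c : List ℕ} (hc : ∀ a ∈ c, 2 ≤ a) {r : ℝ} (hr : 0 < r) (σ : ℝ)
    (p : Sp c) : Ph lam c (r * σ) (r • p) = Dw c r (Ph lam c σ p) := by
  induction c generalizing σ with
  | nil =>
    exact @Subsingleton.elim (EuclideanSpace ℂ (Fin 0)) _ _ _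
  | cons a c ih =>
    have h1 := Sf_smul (lam := lam) hc hr σ p
    obtain ⟨X, z⟩ := (p : Sp c × ℂ)
    have hc' : ∀ b ∈ c, 2 ≤ b := fun b hb => hc b (List.mem_cons_of_mem a hb)
    have h2 := ih hc' (sc σ z / lam) X
    show ((Ph lam c (sc (r * σ) (r • z) / lam) (r • X),
        (Sf lam (a :: c) (r * σ) (r • ((X, z) : Sp c × ℂ)) : ℂ) * xi (r * σ) (r • z)) :
        Sp c × ℂ) =
      ((Dw c r (Ph lam c (sc σ z / lam) X), (r ^ headWt (a :: c) : ℝ) •
        ((Sf lam (a :: c) σ ((X, z) : Sp c × ℂ) : ℂ) * xi σ z)) : Sp c × ℂ)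
    refine Prod.ext ?_ ?_
    · show Ph lam c (sc (r * σ) (r • z) / lam) (r • X) = Dw c r (Ph lam c (sc σ z / lam) X)
      have e : r * sc σ z / lam = r * (sc σ z / lam) := mul_div_assoc _ _ _
      rw [sc_smul hr.le, e, h2]
    · show (Sf lam (a :: c) (r * σ) (r • ((X, z) : Sp c × ℂ)) : ℂ) * xi (r * σ) (r • z) =
        (r ^ headWt (a :: c) : ℝ) • ((Sf lam (a :: c) σ ((X, z) : Sp c × ℂ) : ℂ) * xi σ z)
      have h3 : Sf lam (a :: c) (r * σ) (r • ((X, z) : Sp c × ℂ)) =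
        r ^ headWt (a :: c) * Sf lam (a :: c) σ ((X, z) : Sp c × ℂ) := h1
      rw [h3, xi_smul hr, Complex.real_smul]
      push_cast
      ring

/-- A lower bound for the weighted scaling. -/
theorem exists_le_norm_Dw {c : List ℕ} (hc : ∀ a ∈ c, 2 ≤ a) :
    ∃ w : ℝ, 0 < w ∧ ∀ r : ℝ, 1 ≤ r → ∀ p : Sp c, r ^ w * ‖p‖ ≤ ‖Dw c r p‖ := by
  induction c with
  | nil =>
    refine ⟨1, one_pos, fun r _ p => ?_⟩
    have h1 : p = 0 := @Subsingleton.elim (EuclideanSpace ℂ (Fin 0)) _ _ _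
    rw [h1, norm_zero, mul_zero]
    exact norm_nonneg _
  | cons a c ih =>
    have hc' : ∀ b ∈ c, 2 ≤ b := fun b hb => hc b (List.mem_cons_of_mem a hb)
    obtain ⟨w, hw, hw'⟩ := ih hc'
    have hh := headWt_pos hc (List.cons_ne_nil a c)
    refine ⟨min w (headWt (a :: c)), lt_min hw hh, fun r hr p => ?_⟩
    obtain ⟨X, z⟩ := (p : Sp c × ℂ)
    have h1 : ‖(Dw (a :: c) r ((X, z) : Sp c × ℂ) : Sp c × ℂ)‖ =
        max ‖Dw c r X‖ ‖(r ^ headWt (a :: c) : ℝ) • z‖ := rfl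
    have h2 : ‖((X, z) : Sp c × ℂ)‖ = max ‖X‖ ‖z‖ := rfl
    show r ^ min w (headWt (a :: c)) * ‖((X, z) : Sp c × ℂ)‖ ≤
      ‖(Dw (a :: c) r ((X, z) : Sp c × ℂ) : Sp c × ℂ)‖
    have hr0 : 0 < r := by linarith
    rw [h1, h2, mul_max_of_nonneg _ _ (Real.rpow_nonneg hr0.le _), norm_smul, Real.norm_eq_abs,
      abs_of_pos (Real.rpow_pos_of_pos hr0 _)]
    refine max_le_max ?_ ?_
    · exact (mul_le_mul_of_nonneg_right (Real.rpow_le_rpow_of_exponent_le hr (min_le_left _ _))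
        (norm_nonneg _)).trans (hw' r hr X)
    · exact mul_le_mul_of_nonneg_right (Real.rpow_le_rpow_of_exponent_le hr (min_le_right _ _))
        (norm_nonneg _)

theorem Ph_zero {lam : ℝ} (c : List ℕ) : Ph lam c 0 0 = 0 := by
  have h : ∀ (c : List ℕ) (σ : ℝ), Ph lam c σ 0 = 0 := by
    intro c
    induction c with
    | nil => exact fun _ => rfl
    | cons a c ih =>
      intro σ
      have h1 : xi σ (0 : ℂ) = 0 := xi_zero_right σ
      show ((Ph lam c (sc σ 0 / lam) 0,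
        (Sf lam (a :: c) σ ((0, 0) : Sp c × ℂ) : ℂ) * xi σ 0) : Sp c × ℂ) = 0
      rw [ih, h1, mul_zero]
      rfl
  exact h c 0

/-- `Ph lam c 0` is proper. -/
theorem isProperMap_Ph {lam : ℝ} {c : List ℕ} (hc : ∀ a ∈ c, 2 ≤ a)
    (hcont : Continuous (Ph lam c 0)) (hinj : Function.Injective (Ph lam c 0)) :
    IsProperMap (Ph lam c 0) := by
  rw [isProperMap_iff_tendsto_cocompact]
  refine ⟨hcont, ?_⟩
  have hP : ProperSpace (Sp c) := FiniteDimensional.proper ℝ (Sp c)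
  obtain ⟨w, hw, hw'⟩ := exists_le_norm_Dw hc
  -- lower bound on the sphere
  obtain ⟨δ, hδ, hδ'⟩ : ∃ δ > 0, ∀ x : Sp c, ‖x‖ = 1 → δ ≤ ‖Ph lam c 0 x‖ := by
    have hK : IsCompact (Metric.sphere (0 : Sp c) 1) := isCompact_sphere 0 1
    rcases (Metric.sphere (0 : Sp c) 1).eq_empty_or_nonempty with h | h
    · refine ⟨1, one_pos, fun x hx => ?_⟩
      have h1 : x ∈ Metric.sphere (0 : Sp c) 1 := by simpa using hx
      rw [h] at h1
      exact absurd h1 (notMem_empty x)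
    · obtain ⟨x₀, hx₀, hmin⟩ := hK.exists_isMinOn h hcont.norm.continuousOn
      refine ⟨‖Ph lam c 0 x₀‖, ?_, fun x hx => hmin (by simpa using hx)⟩
      rw [gt_iff_lt, norm_pos_iff]
      intro h0
      rw [← Ph_zero (lam := lam) c] at h0
      have h1 := hinj h0
      rw [h1] at hx₀
      simp at hx₀
  rw [← Metric.cobounded_eq_cocompact, ← comap_norm_atTop (E := Sp c), tendsto_comap_iff]
  have hlim : Tendsto (fun x : Sp c => ‖x‖ ^ w * δ) (comap norm atTop) atTop :=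
    ((tendsto_rpow_atTop hw).comp tendsto_comap).atTop_mul_const hδ
  refine tendsto_atTop_mono' _ ?_ hlim
  have h1 : ∀ᶠ x : Sp c in comap norm atTop, 1 ≤ ‖x‖ :=
    tendsto_comap.eventually (eventually_ge_atTop 1)
  filter_upwards [h1] with x hx
  have hx0 : 0 < ‖x‖ := by linarith
  have h2 : x = ‖x‖ • (‖x‖⁻¹ • x) := by
    rw [smul_smul, mul_inv_cancel₀ hx0.ne', one_smul]
  have h3 : ‖‖x‖⁻¹ • x‖ = 1 := by
    rw [norm_smul, norm_inv, norm_norm, inv_mul_cancel₀ hx0.ne']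
  have h4 := Ph_smul (lam := lam) hc hx0 0 (‖x‖⁻¹ • x)
  rw [mul_zero, ← h2] at h4
  show ‖x‖ ^ w * δ ≤ ‖Ph lam c 0 x‖
  rw [h4]
  exact (mul_le_mul_of_nonneg_left (hδ' _ h3) (Real.rpow_nonneg hx0.le _)).trans
    (hw' ‖x‖ hx _)

/-- The homeomorphism. -/
noncomputable def PhHomeo {lam : ℝ} {c : List ℕ} (hc : ∀ a ∈ c, 2 ≤ a)
    (hcont : Continuous (Ph lam c 0)) (hbij : Function.Bijective (Ph lam c 0)) : Sp c ≃ₜ Sp c :=
  (isHomeomorph_iff_continuous_isClosedMap_bijective.mpr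
    ⟨hcont, (isProperMap_Ph hc hcont hbij.1).isClosedMap, hbij⟩).homeomorph (Ph lam c 0)

theorem toFin_zero (c : List ℕ) : toFin c 0 = 0 := by
  induction c with
  | nil => exact @Subsingleton.elim (Fin 0 → ℂ) _ _ _
  | cons a c ih =>
    show cns a c 0 (toFin c 0) = 0
    rw [ih]
    funext j
    refine Fin.cases (motive := fun j : Fin (c.length + 1) => cns a c 0 0 j = 0) rfl
      (fun i => rfl) (j : Fin (c.length + 1))

/-- **Block P0**, given bijectivity and continuity of `Ph`. -/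
theorem hEqv_P_Fl_of {lam : ℝ} (hlam : 1 ≤ lam) {c : List ℕ} (hc : ∀ a ∈ c, 2 ≤ a)
    (hK : 8 * KL c ≤ lam) (hcont : Continuous (Ph lam c 0))
    (hbij : Function.Bijective (Ph lam c 0)) : HEqv (P c) (Fl lam c) := by
  have hlam0 : 0 < lam := by linarith
  refine HEqv.trans ?_ (hEqv_Ls_Fl hlam hc hK)
  have hP : HFun (P c) := hFun_P hc
  have hL : HFun (Ls lam 1 c 0) := (hEqv_Ls_Fl hlam hc hK).left
  refine (HEqv.of_homeo hL hP (((PhHomeo hc hcont hbij).trans (toFin c)).trans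
    (WcHomeo (chainWt_pos hc)).symm) ?_ fun x => ?_).symm
  · show (WcHomeo (chainWt_pos hc)).symm (toFin c (Ph lam c 0 0)) = 0
    rw [Ph_zero, toFin_zero, Homeomorph.symm_apply_eq, WcHomeo_apply, Wc_zero]
  · show Ls lam 1 c 0 x = P c ((WcHomeo (chainWt_pos hc)).symm (toFin c (Ph lam c 0 x)))
    rw [P, ← WcHomeo_apply (chainWt_pos hc), Homeomorph.apply_symm_apply,
      chainFun_Ph hlam0 hc le_rfl]

end Vale.Agent.P268.T.P0
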