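import Vale.Agent.P268.T.H963.Scale

/-!
# P268, topological half, block P0: Lipschitz bounds, independent of `lam`

`Ls_lip`: the local scale function `Ls lam u (a :: c) σ (X, z)` is Lipschitz in the head variable
`z` and in the external scale `σ ≥ 0`, with a constant `LipK (a :: c)` which only depends on the
exponents (`1 ≤ lam`, `u ∈ [0, 1]`).
-/

set_option linter.unusedSectionVars false

namespace Vale.Agent.P268.T.H155

open Set Filter Topology Vale.Agent.P268.Z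

theorem abs_sc_sub_le (σ σ' : ℝ) (z z' : ℂ) : |sc σ z - sc σ' z'| ≤ max ‖z - z'‖ |σ - σ'| :=
  (abs_max_sub_max_le_max _ _ _ _).trans (max_le_max (abs_norm_sub_norm_le z z') le_rfl)

/-- Relative coordinates. -/
theorem scal_lip {s s' : ℝ} {z z' : ℂ} (hz : ‖z‖ ≤ s) (hz' : ‖z'‖ ≤ s') :
    s * ‖z / (s : ℂ) - z' / (s' : ℂ)‖ ≤ ‖z - z'‖ + |s - s'| := by
  have hs : 0 ≤ s := (norm_nonneg z).trans hz
  have hs' : 0 ≤ s' := (norm_nonneg z').trans hz'
  rcases hs.eq_or_lt with h0 | h0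
  · rw [← h0, zero_mul]
    positivity
  rcases hs'.eq_or_lt with h1 | h1
  · have hz0 : z' = 0 := norm_le_zero_iff.mp (by rw [← h1] at hz'; exact hz')
    rw [hz0, zero_div, sub_zero, sub_zero, norm_div, Complex.norm_real, Real.norm_of_nonneg hs,
      mul_div_cancel₀ _ h0.ne']
    exact le_add_of_nonneg_right (abs_nonneg _)
  · have e0 : (s : ℂ) ≠ 0 := by exact_mod_cast h0.ne'
    have e1 : (s' : ℂ) ≠ 0 := by exact_mod_cast h1.ne'
    have e : (s : ℂ) * (z / (s : ℂ) - z' / (s' : ℂ)) =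
        (z - z') + z' * ((s' - s : ℝ) : ℂ) / (s' : ℂ) := by
      push_cast
      field_simp
      ring
    have e2 : s * ‖z / (s : ℂ) - z' / (s' : ℂ)‖ = ‖(s : ℂ) * (z / (s : ℂ) - z' / (s' : ℂ))‖ := by
      rw [norm_mul, Complex.norm_real, Real.norm_of_nonneg hs]
    rw [e2, e]
    refine (norm_add_le _ _).trans (add_le_add le_rfl ?_)
    rw [norm_div, norm_mul, Complex.norm_real, Complex.norm_real, Real.norm_of_nonneg hs',
      Real.norm_eq_abs, div_le_iff₀ h1, abs_sub_comm, mul_comm]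
    exact mul_le_mul_of_nonneg_left hz' (abs_nonneg _)

theorem norm_div_le_one {s : ℝ} {z : ℂ} (hz : ‖z‖ ≤ s) : ‖z / (s : ℂ)‖ ≤ 1 := by
  have hs : 0 ≤ s := (norm_nonneg z).trans hz
  rw [norm_div, Complex.norm_real, Real.norm_of_nonneg hs]
  exact div_le_one_of_le₀ hz hs

theorem norm_mul_pow_div_le {s : ℝ} {z : ℂ} (hz : ‖z‖ ≤ s) (a : ℕ) :
    ‖(s : ℂ) * (z / (s : ℂ)) ^ a‖ ≤ s := by
  have hs : 0 ≤ s := (norm_nonneg z).trans hz
  rw [norm_mul, Complex.norm_real, Real.norm_of_nonneg hs, norm_pow]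
  exact mul_le_of_le_one_right hs (pow_le_one₀ (norm_nonneg _) (norm_div_le_one hz))

/-- The head monomial at local scale is Lipschitz. -/
theorem mono_lip {s s' : ℝ} {z z' : ℂ} (hz : ‖z‖ ≤ s) (hz' : ‖z'‖ ≤ s') {a : ℕ} (ha : 1 ≤ a) :
    ‖(s : ℂ) * (z / (s : ℂ)) ^ a - (s' : ℂ) * (z' / (s' : ℂ)) ^ a‖ ≤
      a * (‖z - z'‖ + |s - s'|) := by
  have hs : 0 ≤ s := (norm_nonneg z).trans hz
  induction a, ha using Nat.le_induction with
  | base =>
    have key : ∀ {s : ℝ} {z : ℂ}, ‖z‖ ≤ s → (s : ℂ) * (z / (s : ℂ)) ^ 1 = z := by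
      intro s z hz
      rw [pow_one]
      rcases ((norm_nonneg z).trans hz).eq_or_lt with h0 | h0
      · have : z = 0 := norm_le_zero_iff.mp (by rw [← h0] at hz; exact hz)
        rw [this, zero_div, mul_zero]
      · exact mul_div_cancel₀ _ (by exact_mod_cast h0.ne')
    rw [key hz, key hz', Nat.cast_one, one_mul]
    exact le_add_of_nonneg_right (abs_nonneg _)
  | succ a ha ih =>
    have e : (s : ℂ) * (z / (s : ℂ)) ^ (a + 1) - (s' : ℂ) * (z' / (s' : ℂ)) ^ (a + 1) =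
        ((s : ℂ) * (z / (s : ℂ)) ^ a - (s' : ℂ) * (z' / (s' : ℂ)) ^ a) * (z' / (s' : ℂ)) +
        ((s : ℂ) * (z / (s : ℂ)) ^ a) * (z / (s : ℂ) - z' / (s' : ℂ)) := by ring
    rw [e]
    refine (norm_add_le _ _).trans ?_
    rw [norm_mul, norm_mul]
    have h1 : ‖(s : ℂ) * (z / (s : ℂ)) ^ a - (s' : ℂ) * (z' / (s' : ℂ)) ^ a‖ * ‖z' / (s' : ℂ)‖ ≤
        (a * (‖z - z'‖ + |s - s'|)) * 1 :=
      mul_le_mul ih (norm_div_le_one hz') (norm_nonneg _) (by positivity)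
    have h2 : ‖(s : ℂ) * (z / (s : ℂ)) ^ a‖ * ‖z / (s : ℂ) - z' / (s' : ℂ)‖ ≤
        ‖z - z'‖ + |s - s'| :=
      (mul_le_mul_of_nonneg_right (norm_mul_pow_div_le hz a) (norm_nonneg _)).trans
        (scal_lip hz hz')
    push_cast
    linarith

/-- The relative coordinate of the next variable depends slowly on the scale. -/
theorem xi_scale_lip {lam : ℝ} (hlam : 0 < lam) (s s' : ℝ) (y : ℂ) :
    s * ‖xi (s / lam) y - xi (s' / lam) y‖ ≤ |s - s'| := by
  rcases eq_or_ne y 0 with rfl | hy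
  · rw [xi_zero_right, xi_zero_right, sub_zero, norm_zero, mul_zero]
    exact abs_nonneg _
  have hm : 0 < sc (s / lam) y := sc_pos' hy
  have hm' : 0 < sc (s' / lam) y := sc_pos' hy
  have e0 : (sc (s / lam) y : ℂ) ≠ 0 := by exact_mod_cast hm.ne'
  have e1 : (sc (s' / lam) y : ℂ) ≠ 0 := by exact_mod_cast hm'.ne'
  have e : xi (s / lam) y - xi (s' / lam) y =
      y / (sc (s' / lam) y : ℂ) * ((sc (s' / lam) y - sc (s / lam) y : ℝ) : ℂ) /
        (sc (s / lam) y : ℂ) := by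
    rw [xi, xi]
    push_cast
    field_simp
  have h1 : ‖xi (s / lam) y - xi (s' / lam) y‖ ≤
      |sc (s' / lam) y - sc (s / lam) y| / sc (s / lam) y := by
    rw [e, norm_div, norm_mul, Complex.norm_real, Complex.norm_real, Real.norm_of_nonneg hm.le,
      Real.norm_eq_abs]
    refine div_le_div_of_nonneg_right ?_ hm.le
    exact mul_le_of_le_one_left (abs_nonneg _) (norm_div_le_one (norm_le_sc _ _))
  have h2 : s ≤ lam * sc (s / lam) y := by
    have := le_sc (s / lam) y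
    rw [div_le_iff₀ hlam] at this
    linarith
  have h3 : |sc (s' / lam) y - sc (s / lam) y| ≤ |s - s'| / lam := by
    refine (abs_sc_sub_le _ _ _ _).trans ?_
    rw [sub_self, norm_zero, max_eq_right (abs_nonneg _), ← sub_div, abs_div, abs_of_pos hlam,
      abs_sub_comm]
  calc s * ‖xi (s / lam) y - xi (s' / lam) y‖
      ≤ (lam * sc (s / lam) y) * (|sc (s' / lam) y - sc (s / lam) y| / sc (s / lam) y) :=
        mul_le_mul h2 h1 (norm_nonneg _) (mul_nonneg hlam.le hm.le)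
    _ = lam * |sc (s' / lam) y - sc (s / lam) y| := by field_simp
    _ ≤ lam * (|s - s'| / lam) := mul_le_mul_of_nonneg_left h3 hlam.le
    _ = |s - s'| := by field_simp

theorem cpl_eq (lam σ : ℝ) (a : ℕ) (y z : ℂ) :
    cpl lam σ a y z = ((sc σ z : ℂ) * (z / (sc σ z : ℂ)) ^ a) * xi (sc σ z / lam) y := rfl

/-- The coupling is Lipschitz in the head variable and the scale. -/
theorem cpl_lip {lam : ℝ} (hlam : 0 < lam) {a : ℕ} (ha : 1 ≤ a) (σ σ' : ℝ) (y z z' : ℂ) :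
    ‖cpl lam σ a y z - cpl lam σ' a y z'‖ ≤ (2 * a + 1) * max ‖z - z'‖ |σ - σ'| := by
  set d := max ‖z - z'‖ |σ - σ'| with hd
  have hd0 : 0 ≤ d := le_max_of_le_left (norm_nonneg _)
  have h1 : ‖z - z'‖ ≤ d := le_max_left _ _
  have h2 : |sc σ z - sc σ' z'| ≤ d := abs_sc_sub_le σ σ' z z'
  have e : cpl lam σ a y z - cpl lam σ' a y z' =
      ((sc σ z : ℂ) * (z / (sc σ z : ℂ)) ^ a - (sc σ' z' : ℂ) * (z' / (sc σ' z' : ℂ)) ^ a) *
        xi (sc σ' z' / lam) y +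
      ((sc σ z : ℂ) * (z / (sc σ z : ℂ)) ^ a) *
        (xi (sc σ z / lam) y - xi (sc σ' z' / lam) y) := by
    rw [cpl_eq, cpl_eq]
    ring
  rw [e]
  refine (norm_add_le _ _).trans ?_
  rw [norm_mul, norm_mul]
  have h3 := mono_lip (norm_le_sc σ z) (norm_le_sc σ' z') ha
  have h4 : (a : ℝ) * (‖z - z'‖ + |sc σ z - sc σ' z'|) ≤ a * (d + d) :=
    mul_le_mul_of_nonneg_left (add_le_add h1 h2) (Nat.cast_nonneg a)
  have h5 : ‖(sc σ z : ℂ) * (z / (sc σ z : ℂ)) ^ a -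
      (sc σ' z' : ℂ) * (z' / (sc σ' z' : ℂ)) ^ a‖ * ‖xi (sc σ' z' / lam) y‖ ≤
      (a * (d + d)) * 1 :=
    mul_le_mul (h3.trans h4) (norm_xi_le _ _) (norm_nonneg _) (by positivity)
  have h6 : ‖(sc σ z : ℂ) * (z / (sc σ z : ℂ)) ^ a‖ *
      ‖xi (sc σ z / lam) y - xi (sc σ' z' / lam) y‖ ≤ d :=
    (mul_le_mul_of_nonneg_right (norm_mul_pow_div_le (norm_le_sc σ z) a) (norm_nonneg _)).trans
      ((xi_scale_lip hlam _ _ y).trans h2)
  linarith

/-- The coupling is Lipschitz in the next variable (product form). -/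
theorem cpl_lip_snd (lam σ : ℝ) (a : ℕ) (y y' z : ℂ) :
    sc (sc σ z / lam) y * ‖cpl lam σ a y z - cpl lam σ a y' z‖ ≤ 2 * sc σ z * ‖y - y'‖ := by
  have e : cpl lam σ a y z - cpl lam σ a y' z =
      ((sc σ z : ℂ) * (z / (sc σ z : ℂ)) ^ a) *
        (xi (sc σ z / lam) y - xi (sc σ z / lam) y') := by
    rw [cpl_eq, cpl_eq]
    ring
  have h1 := norm_mul_pow_div_le (norm_le_sc σ z) a
  have h2 : sc (sc σ z / lam) y * ‖xi (sc σ z / lam) y - xi (sc σ z / lam) y'‖ ≤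
      2 * ‖y - y'‖ := by
    have h3 := scal_lip (norm_le_sc (sc σ z / lam) y) (norm_le_sc (sc σ z / lam) y')
    have h4 := abs_sc_sub_le (sc σ z / lam) (sc σ z / lam) y y'
    rw [sub_self, abs_zero, max_eq_left (norm_nonneg _)] at h4
    have h5 : sc (sc σ z / lam) y * ‖xi (sc σ z / lam) y - xi (sc σ z / lam) y'‖ ≤
      ‖y - y'‖ + |sc (sc σ z / lam) y - sc (sc σ z / lam) y'| := h3
    linarith
  rw [e, norm_mul]
  calc sc (sc σ z / lam) y * (‖(sc σ z : ℂ) * (z / (sc σ z : ℂ)) ^ a‖ *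
        ‖xi (sc σ z / lam) y - xi (sc σ z / lam) y'‖)
      = ‖(sc σ z : ℂ) * (z / (sc σ z : ℂ)) ^ a‖ *
        (sc (sc σ z / lam) y * ‖xi (sc σ z / lam) y - xi (sc σ z / lam) y'‖) := by ring
    _ ≤ sc σ z * (2 * ‖y - y'‖) :=
        mul_le_mul h1 h2 (mul_nonneg (sc_nonneg _) (norm_nonneg _)) (sc_nonneg _)
    _ = 2 * sc σ z * ‖y - y'‖ := by ring

/-- The coupling is Lipschitz in the next variable. -/
theorem cpl_lip_snd' {lam : ℝ} (hlam : 0 < lam) (σ : ℝ) (a : ℕ) (y y' z : ℂ) :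
    ‖cpl lam σ a y z - cpl lam σ a y' z‖ ≤ 2 * lam * ‖y - y'‖ := by
  rcases (sc_nonneg (σ := σ) z).eq_or_lt with h0 | h0
  · have e : ∀ y, cpl lam σ a y z = 0 := fun y => by
      rw [cpl, ← h0]
      simp
    rw [e, e, sub_zero, norm_zero]
    positivity
  · have h1 := cpl_lip_snd lam σ a y y' z
    have h2 : sc σ z / lam ≤ sc (sc σ z / lam) y := le_sc _ _
    have h3 : 0 < sc σ z / lam := div_pos h0 hlam
    have h4 : sc σ z / lam * ‖cpl lam σ a y z - cpl lam σ a y' z‖ ≤ 2 * sc σ z * ‖y - y'‖ :=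
      (mul_le_mul_of_nonneg_right h2 (norm_nonneg _)).trans h1
    rw [div_mul_eq_mul_div, div_le_iff₀ hlam] at h4
    have h5 : sc σ z * ‖cpl lam σ a y z - cpl lam σ a y' z‖ ≤
        sc σ z * (2 * lam * ‖y - y'‖) := by linarith
    exact le_of_mul_le_mul_left h5 h0

theorem norm_cpl_le (lam σ : ℝ) (a : ℕ) (y z : ℂ) : ‖cpl lam σ a y z‖ ≤ sc σ z := by
  rw [cpl, norm_mul]
  have h1 : ‖(sc σ z : ℂ) * xi σ z ^ a‖ ≤ sc σ z := norm_mul_pow_div_le (norm_le_sc σ z) a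
  calc ‖(sc σ z : ℂ) * xi σ z ^ a‖ * ‖xi (sc σ z / lam) y‖ ≤ sc σ z * 1 :=
        mul_le_mul h1 (norm_xi_le _ _) (norm_nonneg _) (sc_nonneg _)
    _ = sc σ z := mul_one _

/-- The Lipschitz constant of the local scale functions. -/
noncomputable def LipK : List ℕ → ℝ
  | [] => 0
  | a :: c => (2 * (a : ℝ) + 2) + LipK c

theorem LipK_nil : LipK [] = 0 := rfl

theorem LipK_cons (a : ℕ) (c : List ℕ) : LipK (a :: c) = (2 * (a : ℝ) + 2) + LipK c := rfl

theorem LipK_nonneg (c : List ℕ) : 0 ≤ LipK c := by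
  induction c with
  | nil => exact le_rfl
  | cons a c ih =>
    rw [LipK_cons]
    positivity

/-- **The local scale functions are Lipschitz in the head variable and in the external scale,
with a constant independent of `lam`.** -/
theorem Ls_lip {lam u : ℝ} (hlam : 1 ≤ lam) (hu0 : 0 ≤ u) (hu1 : u ≤ 1) (c : List ℕ) (a : ℕ)
    (hc : ∀ b ∈ a :: c, 1 ≤ b) (σ σ' : ℝ) (X : Sp c) (z z' : ℂ) :
    ‖Ls lam u (a :: c) σ ((X, z) : Sp c × ℂ) - Ls lam u (a :: c) σ' ((X, z') : Sp c × ℂ)‖ ≤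
      LipK (a :: c) * max ‖z - z'‖ |σ - σ'| := by
  have hlam0 : 0 < lam := zero_lt_one.trans_le hlam
  induction c generalizing a σ σ' z z' with
  | nil =>
    have ha : 1 ≤ a := hc a List.mem_cons_self
    set d := max ‖z - z'‖ |σ - σ'| with hd
    have hd0 : 0 ≤ d := le_max_of_le_left (norm_nonneg _)
    have h1 : ‖z - z'‖ ≤ d := le_max_left _ _
    have h2 : |sc σ z - sc σ' z'| ≤ d := abs_sc_sub_le σ σ' z z'
    have h3 : ‖Ls lam u [a] σ ((X, z) : Sp [] × ℂ) - Ls lam u [a] σ' ((X, z') : Sp [] × ℂ)‖ ≤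
        a * (‖z - z'‖ + |sc σ z - sc σ' z'|) := mono_lip (norm_le_sc σ z) (norm_le_sc σ' z') ha
    have h4 : (a : ℝ) * (‖z - z'‖ + |sc σ z - sc σ' z'|) ≤ a * (d + d) :=
      mul_le_mul_of_nonneg_left (add_le_add h1 h2) (Nat.cast_nonneg a)
    rw [LipK_cons, LipK_nil]
    linarith
  | cons b c ih =>
    obtain ⟨X', y⟩ := (X : Sp c × ℂ)
    have ha : 1 ≤ a := hc a List.mem_cons_self
    have h1 := ih b (fun d hd => hc d (List.mem_cons_of_mem a hd)) (u * (sc σ z / lam))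
      (u * (sc σ' z' / lam)) X' y y
    have h2 := cpl_lip hlam0 ha σ σ' y z z'
    have h3 := abs_sc_sub_le σ σ' z z'
    set d := max ‖z - z'‖ |σ - σ'| with hd
    have hd0 : 0 ≤ d := le_max_of_le_left (norm_nonneg _)
    rw [sub_self, norm_zero, max_eq_right (abs_nonneg _), ← mul_sub, ← sub_div, abs_mul, abs_div,
      abs_of_nonneg hu0, abs_of_pos hlam0] at h1
    have h4 : u * (|sc σ z - sc σ' z'| / lam) ≤ d := by
      have h5 : |sc σ z - sc σ' z'| / lam ≤ |sc σ z - sc σ' z'| :=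
        div_le_self (abs_nonneg _) hlam
      calc u * (|sc σ z - sc σ' z'| / lam) ≤ 1 * (|sc σ z - sc σ' z'| / lam) :=
            mul_le_mul_of_nonneg_right hu1 (div_nonneg (abs_nonneg _) hlam0.le)
        _ ≤ d := by rw [one_mul]; exact h5.trans h3
    have h6 := h1.trans (mul_le_mul_of_nonneg_left h4 (LipK_nonneg (b :: c)))
    have e : Ls lam u (a :: b :: c) σ (((X', y), z) : (Sp c × ℂ) × ℂ) -
        Ls lam u (a :: b :: c) σ' (((X', y), z') : (Sp c × ℂ) × ℂ) =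
        (Ls lam u (b :: c) (u * (sc σ z / lam)) ((X', y) : Sp c × ℂ) -
          Ls lam u (b :: c) (u * (sc σ' z' / lam)) ((X', y) : Sp c × ℂ)) +
        (cpl lam σ a y z - cpl lam σ' a y z') := by
      rw [Ls_cons, Ls_cons]
      ring
    have h7 : ‖Ls lam u (a :: b :: c) σ (((X', y), z) : (Sp c × ℂ) × ℂ) -
        Ls lam u (a :: b :: c) σ' (((X', y), z') : (Sp c × ℂ) × ℂ)‖ ≤
        LipK (b :: c) * d + (2 * a + 1) * d := by
      rw [e]
      exact (norm_add_le _ _).trans (add_le_add h6 h2)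
    refine h7.trans ?_
    rw [LipK_cons a (b :: c)]
    linarith

/-- Dependence on the external scale only (all chains). -/
theorem Ls_lip_scale {lam u : ℝ} (hlam : 1 ≤ lam) (hu0 : 0 ≤ u) (hu1 : u ≤ 1) (c : List ℕ)
    (hc : ∀ b ∈ c, 1 ≤ b) (σ σ' : ℝ) (X : Sp c) :
    ‖Ls lam u c σ X - Ls lam u c σ' X‖ ≤ LipK c * |σ - σ'| := by
  cases c with
  | nil =>
    rw [Ls_nil, Ls_nil, sub_zero, norm_zero, LipK_nil, zero_mul]
  | cons a c =>
    obtain ⟨X, z⟩ := (X : Sp c × ℂ)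
    have h := Ls_lip hlam hu0 hu1 c a hc σ σ' X z z
    rwa [sub_self, norm_zero, max_eq_right (abs_nonneg _)] at h

end Vale.Agent.P268.T.H155
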