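import Vale.Agent.P268.T.H548.Lk

/-!
# P268, topological half, block P0: planar regularity of the link `lk`, with bounded directions
-/

set_option linter.unusedSectionVars false

namespace Vale.Agent.P268.T

open Set Filter Topology

theorem norm_re_add_im_div_le {a : ℕ} (ha : a ≠ 0) (w : ℂ) :
    ‖(w.re : ℂ) + (w.im : ℂ) * (Complex.I / a)‖ ≤ ‖w‖ := by
  have ha1 : (1 : ℝ) ≤ a := by exact_mod_cast Nat.one_le_iff_ne_zero.mpr ha
  have ha0 : (0 : ℝ) < a := zero_lt_one.trans_le ha1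
  have e : (w.re : ℂ) + (w.im : ℂ) * (Complex.I / a) = ⟨w.re, w.im / a⟩ := by
    apply Complex.ext
    · have : (Complex.I / (a : ℂ)) = (((1 / (a : ℝ) : ℝ)) : ℂ) * Complex.I := by
        push_cast; ring
      rw [this]; simp
    · have : (Complex.I / (a : ℂ)) = (((1 / (a : ℝ) : ℝ)) : ℂ) * Complex.I := by
        push_cast; ring
      rw [this]; simp; ring
  rw [e]
  refine le_of_pow_le_pow_left₀ two_ne_zero (norm_nonneg w) ?_
  rw [← Complex.normSq_eq_norm_sq, ← Complex.normSq_eq_norm_sq, Complex.normSq_mk,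
    Complex.normSq_apply]
  have h1 : w.im / a * (w.im / a) ≤ w.im * w.im := by
    rw [div_mul_div_comm]
    refine div_le_self (mul_self_nonneg _) ?_
    nlinarith
  linarith

/-- Bounds for the directions of the scaling and rotation. -/
theorem norm_snd_dirA_le {a : ℕ} (ha : a ≠ 0) {v z₀ p : ℂ} (hv : v ≠ 0) (h : ‖v‖ = ‖z₀‖) :
    ‖(ContinuousLinearMap.snd ℝ ℂ ℂ).comp (dirA v (p, z₀) ((0 : ℂ), (Complex.I / a) * z₀))‖ ≤ 1 := by
  refine ContinuousLinearMap.opNorm_le_bound _ zero_le_one fun c => ?_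
  have e : ((ContinuousLinearMap.snd ℝ ℂ ℂ).comp
      (dirA v (p, z₀) ((0 : ℂ), (Complex.I / a) * z₀))) c =
      (((v⁻¹ * c).re : ℂ) + ((v⁻¹ * c).im : ℂ) * (Complex.I / a)) * z₀ := by
    show (dirA v (p, z₀) ((0 : ℂ), (Complex.I / a) * z₀) c).2 = _
    rw [dirA_apply]
    simp only [Prod.snd_add, Prod.smul_snd, Complex.real_smul]
    ring
  rw [e, norm_mul, one_mul]
  have h1 := norm_re_add_im_div_le ha (v⁻¹ * c)
  have hv0 : 0 < ‖v‖ := norm_pos_iff.mpr hv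
  calc _ ≤ ‖v⁻¹ * c‖ * ‖z₀‖ := mul_le_mul_of_nonneg_right h1 (norm_nonneg _)
    _ = ‖c‖ := by
        rw [norm_mul, norm_inv, ← h]
        field_simp

/-- **Planar regularity of the link** at the points with `z ≠ 0`, along a direction whose
`y`-component is at most `1 / lam` and whose `z`-component is at most `1`. -/
theorem lk_mreg {lam : ℝ} (hlam : 0 < lam) {a : ℕ} (ha : a ≠ 0) (y₀ : ℂ) {z₀ : ℂ} (hz : z₀ ≠ 0)
    {ε : ℝ} (hε : 0 < ε) :
    ∃ A : ℂ →L[ℝ] ℂ × ℂ, ‖(ContinuousLinearMap.fst ℝ ℂ ℂ).comp A‖ ≤ 1 / lam ∧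
      ‖(ContinuousLinearMap.snd ℝ ℂ ℂ).comp A‖ ≤ 1 ∧
      ∃ U ∈ 𝓝 (y₀, z₀), MRegOn ε (fun q : ℂ × ℂ => lk lam a q.1 q.2) A U := by
  have hone : (1 : WithTop ℕ∞) ≠ 0 := one_ne_zero
  rcases lt_trichotomy ‖z₀‖ (lam * ‖y₀‖) with hlt | heq | hgt
  · -- inner region
    have hy : y₀ ≠ 0 := by
      rintro rfl
      rw [norm_zero, mul_zero] at hlt
      exact absurd hlt (not_lt.mpr (norm_nonneg _))
    set v : ℂ := ((‖z₀‖ : ℝ) : ℂ) * (ph y₀ * ph z₀ ^ a) with hv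
    have hv0 : v ≠ 0 := mul_ne_zero (by exact_mod_cast norm_ne_zero_iff.mpr hz)
      (mul_ne_zero (ph_ne hy) (pow_ne_zero _ (ph_ne hz)))
    have hvn : ‖v‖ = ‖z₀‖ := by
      rw [hv, norm_mul, norm_mul, norm_pow, norm_ph hy, norm_ph hz]
      simp
    have hG := (strict_inner a hy hz lam).hasStrictFDerivAt hone
    obtain ⟨d1, -, d3⟩ := inner_dirs ha hG
    set G' := fderiv ℝ (fun p : ℝ × (ℂ × ℂ) => ((‖p.2.2‖ : ℝ) : ℂ) *
      (ph p.2.1 * ph p.2.2 ^ a)) (lam, (y₀, z₀))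
    obtain ⟨U, hU, hev⟩ := exists_mregOn_of_strict (s := univ)
      (F := fun (_ : ℝ) (q : ℂ × ℂ) => ((‖q.2‖ : ℝ) : ℂ) * (ph q.1 * ph q.2 ^ a))
      (G'.comp (ContinuousLinearMap.inr ℝ ℝ (ℂ × ℂ)))
      (dirA v ((0 : ℂ), z₀) ((0 : ℂ), (Complex.I / a) * z₀))
      (apply_dirA hv0 (by simpa using d1) (by simpa using d3))
      (fun ε hε => strict_of_joint (s := univ)
        (F := fun (_ : ℝ) (q : ℂ × ℂ) => ((‖q.2‖ : ℝ) : ℂ) * (ph q.1 * ph q.2 ^ a)) hG hε) hε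
    rw [nhdsWithin_univ] at hev
    have hopen : {q : ℂ × ℂ | ‖q.2‖ < lam * ‖q.1‖} ∈ 𝓝 (y₀, z₀) :=
      (isOpen_lt (by fun_prop) (by fun_prop)).mem_nhds hlt
    refine ⟨dirA v ((0 : ℂ), z₀) ((0 : ℂ), (Complex.I / a) * z₀), ?_,
      norm_snd_dirA_le ha hv0 hvn, _, inter_mem hU hopen, ?_⟩
    · have : (ContinuousLinearMap.fst ℝ ℂ ℂ).comp
          (dirA v ((0 : ℂ), z₀) ((0 : ℂ), (Complex.I / a) * z₀)) = 0 := by
        ext c
        all_goals simp [dirA_apply]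
      rw [this, norm_zero]
      positivity
    · refine MRegOn.congr_on (hev.self_of_nhds.mono inter_subset_left) fun q hq => ?_
      exact (lk_of_le (le_of_lt hq.2)).symm
  · -- the kink
    have hy : y₀ ≠ 0 := by
      rintro rfl
      rw [norm_zero, mul_zero] at heq
      exact hz (norm_eq_zero.mp heq)
    set v : ℂ := ((‖z₀‖ : ℝ) : ℂ) * (ph y₀ * ph z₀ ^ a) with hv
    have hv0 : v ≠ 0 := mul_ne_zero (by exact_mod_cast norm_ne_zero_iff.mpr hz)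
      (mul_ne_zero (ph_ne hy) (pow_ne_zero _ (ph_ne hz)))
    have hvn : ‖v‖ = ‖z₀‖ := by
      rw [hv, norm_mul, norm_mul, norm_pow, norm_ph hy, norm_ph hz]
      simp
    have hv2 : (lam : ℂ) * (y₀ * ph z₀ ^ a) = v := by
      rw [hv, heq]
      push_cast
      rw [mul_assoc (lam : ℂ), ← mul_assoc ((‖y₀‖ : ℝ) : ℂ), norm_mul_ph]
    have hG := (strict_inner a hy hz lam).hasStrictFDerivAt hone
    have hH := (strict_core a y₀ hz lam).hasStrictFDerivAt hone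
    obtain ⟨-, d2, d3⟩ := inner_dirs ha hG
    obtain ⟨e2, e3⟩ := core_dirs ha hH
    rw [hv2] at e2 e3
    set G' := fderiv ℝ (fun p : ℝ × (ℂ × ℂ) => ((‖p.2.2‖ : ℝ) : ℂ) *
      (ph p.2.1 * ph p.2.2 ^ a)) (lam, (y₀, z₀))
    set H' := fderiv ℝ (fun p : ℝ × (ℂ × ℂ) => (p.1 : ℂ) * (p.2.1 * ph p.2.2 ^ a))
      (lam, (y₀, z₀))
    obtain ⟨U, hU, hev⟩ := exists_mregOn_of_strict (s := univ)
      (F := fun (_ : ℝ) (q : ℂ × ℂ) => ((‖q.2‖ : ℝ) : ℂ) * (ph q.1 * ph q.2 ^ a))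
      (G'.comp (ContinuousLinearMap.inr ℝ ℝ (ℂ × ℂ)))
      (dirA v (y₀, z₀) ((0 : ℂ), (Complex.I / a) * z₀))
      (apply_dirA hv0 (by simpa using d2) (by simpa using d3))
      (fun ε hε => strict_of_joint (s := univ)
        (F := fun (_ : ℝ) (q : ℂ × ℂ) => ((‖q.2‖ : ℝ) : ℂ) * (ph q.1 * ph q.2 ^ a)) hG hε) hε
    obtain ⟨U', hU', hev'⟩ := exists_mregOn_of_strict (s := univ)
      (F := fun (l : ℝ) (q : ℂ × ℂ) => (l : ℂ) * (q.1 * ph q.2 ^ a))
      (H'.comp (ContinuousLinearMap.inr ℝ ℝ (ℂ × ℂ)))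
      (dirA v (y₀, z₀) ((0 : ℂ), (Complex.I / a) * z₀))
      (apply_dirA hv0 (by simpa using e2) (by simpa using e3))
      (fun ε hε => strict_of_joint (s := univ)
        (F := fun (l : ℝ) (q : ℂ × ℂ) => (l : ℂ) * (q.1 * ph q.2 ^ a)) hH hε) hε
    rw [nhdsWithin_univ] at hev hev'
    obtain ⟨R, hR, hball⟩ := Metric.mem_nhds_iff.mp (inter_mem hU hU')
    refine ⟨dirA v (y₀, z₀) ((0 : ℂ), (Complex.I / a) * z₀), ?_, norm_snd_dirA_le ha hv0 hvn,
      Metric.ball (y₀, z₀) R, Metric.ball_mem_nhds _ hR, ?_⟩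
    · refine ContinuousLinearMap.opNorm_le_bound _ (by positivity) fun c => ?_
      have e : ((ContinuousLinearMap.fst ℝ ℂ ℂ).comp
          (dirA v (y₀, z₀) ((0 : ℂ), (Complex.I / a) * z₀))) c = (v⁻¹ * c).re • y₀ := by
        simp [dirA_apply]
      rw [e, norm_smul, Real.norm_eq_abs]
      have h1 : |(v⁻¹ * c).re| ≤ ‖v‖⁻¹ * ‖c‖ := by
        refine (Complex.abs_re_le_norm _).trans ?_
        rw [norm_mul, norm_inv]
      have h2 : ‖v‖ = lam * ‖y₀‖ := by rw [hvn, heq]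
      have hy0 : 0 < ‖y₀‖ := norm_pos_iff.mpr hy
      calc |(v⁻¹ * c).re| * ‖y₀‖ ≤ ‖v‖⁻¹ * ‖c‖ * ‖y₀‖ :=
            mul_le_mul_of_nonneg_right h1 (norm_nonneg _)
        _ = 1 / lam * ‖c‖ := by rw [h2]; field_simp
    · refine MRegOn.select (convex_ball _ _) ?_ (fun q _ => ?_)
        (hev.self_of_nhds.mono (hball.trans inter_subset_left))
        (hev'.self_of_nhds.mono (hball.trans inter_subset_right))
      · have hc := (continuousOn_lk a).comp (f := fun q : ℂ × ℂ => (lam, q)) (s := univ)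
          (by fun_prop) (fun q _ => ⟨hlam.le, mem_univ _⟩)
        exact hc.mono (subset_univ _)
      · rcases le_total ‖q.2‖ (lam * ‖q.1‖) with h | h
        · exact Or.inl (lk_of_le h)
        · exact Or.inr (lk_of_ge h)
  · -- core region
    have hH := (strict_core a y₀ hz lam).hasStrictFDerivAt hone
    have hy' := core_y hH
    set H' := fderiv ℝ (fun p : ℝ × (ℂ × ℂ) => (p.1 : ℂ) * (p.2.1 * ph p.2.2 ^ a))
      (lam, (y₀, z₀))
    set u : ℂ := (lam : ℂ) * ph z₀ ^ a with hu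
    have hu0 : u ≠ 0 := mul_ne_zero (by exact_mod_cast hlam.ne') (pow_ne_zero _ (ph_ne hz))
    set A : ℂ →L[ℝ] ℂ × ℂ :=
      (ContinuousLinearMap.inl ℝ ℂ ℂ).comp (ContinuousLinearMap.mul ℝ ℂ u⁻¹) with hA
    have hAc : ∀ c, A c = (u⁻¹ * c, 0) := fun c => rfl
    obtain ⟨U, hU, hev⟩ := exists_mregOn_of_strict (s := univ)
      (F := fun (l : ℝ) (q : ℂ × ℂ) => (l : ℂ) * (q.1 * ph q.2 ^ a))
      (H'.comp (ContinuousLinearMap.inr ℝ ℝ (ℂ × ℂ))) A
      (fun c => by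
        have h1 : (H'.comp (ContinuousLinearMap.inr ℝ ℝ (ℂ × ℂ))) (A c) = H' (0, (u⁻¹ * c, 0)) :=
          rfl
        rw [h1, hy', ← mul_assoc]
        have h2 : (lam : ℂ) * (u⁻¹ * c) * ph z₀ ^ a = (u * u⁻¹) * c := by rw [hu]; ring
        rw [h2, mul_inv_cancel₀ hu0, one_mul])
      (fun ε hε => strict_of_joint (s := univ)
        (F := fun (l : ℝ) (q : ℂ × ℂ) => (l : ℂ) * (q.1 * ph q.2 ^ a)) hH hε) hε
    rw [nhdsWithin_univ] at hev
    have hopen : {q : ℂ × ℂ | lam * ‖q.1‖ < ‖q.2‖} ∈ 𝓝 (y₀, z₀) :=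
      (isOpen_lt (by fun_prop) (by fun_prop)).mem_nhds hgt
    refine ⟨A, ?_, ?_, _, inter_mem hU hopen, ?_⟩
    · refine ContinuousLinearMap.opNorm_le_bound _ (by positivity) fun c => ?_
      have e : ((ContinuousLinearMap.fst ℝ ℂ ℂ).comp A) c = u⁻¹ * c := rfl
      rw [e, norm_mul, norm_inv]
      have h2 : ‖u‖ = lam := by
        rw [hu, norm_mul, norm_pow, norm_ph hz, Complex.norm_real, Real.norm_of_nonneg hlam.le]
        simp
      rw [h2, ← one_div]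
    · have : (ContinuousLinearMap.snd ℝ ℂ ℂ).comp A = 0 := by
        ext c
        all_goals simp [hAc]
      rw [this, norm_zero]
      exact zero_le_one
    · refine MRegOn.congr_on (hev.self_of_nhds.mono inter_subset_left) fun q hq => ?_
      exact (lk_of_ge (le_of_lt hq.2)).symm

end Vale.Agent.P268.T
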