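import Vale.Agent.P268.T.H963.Lip
import Vale.Agent.P268.T.H963.ContPh
import Vale.Agent.P268.T.H548.Lk

/-!
# P268, topological half, block P0: elementary properties of the local scale functions

Homogeneity, continuity, and the comparison with the link chain `Fl`: for `σ ≤ ‖z‖` the coupling
`cpl lam σ a y z` is the link `lk lam a y z`, and `Ls lam 0 c 0 = Fl lam c`.
-/

set_option linter.unusedSectionVars false

namespace Vale.Agent.P268.T.H155

open Set Filter Topology Vale.Agent.P268.Z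

/-! ### The coupling and the link -/

/-- Outside the external scale the coupling is the link. -/
theorem cpl_of_le {lam σ : ℝ} (hlam : 0 < lam) (a : ℕ) (y : ℂ) {z : ℂ} (h : σ ≤ ‖z‖) :
    cpl lam σ a y z = lk lam a y z := by
  rcases le_total ‖z‖ (lam * ‖y‖) with h1 | h1
  · rw [lk_of_le h1, cpl, sc_of_le h]
    have h2 : sc (‖z‖ / lam) y = ‖y‖ := sc_of_le (by rw [div_le_iff₀ hlam]; linarith)
    have h3 : xi σ z = ph z := by rw [xi, sc_of_le h, ph]
    have h4 : xi (‖z‖ / lam) y = ph y := by rw [xi, h2, ph]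
    rw [h3, h4]
    ring
  · rcases eq_or_ne z 0 with rfl | hz
    · have hy : y = 0 := by
        rw [norm_zero] at h1
        have : ‖y‖ ≤ 0 := by
          by_contra hc
          exact absurd h1 (not_le.mpr (mul_pos hlam (not_le.mp hc)))
        exact norm_le_zero_iff.mp this
      rw [lk_zero_right hlam.le, cpl, sc_of_le h, norm_zero]
      simp
    · have hz0 : ((‖z‖ : ℝ) : ℂ) ≠ 0 := by exact_mod_cast norm_ne_zero_iff.mpr hz
      have hl0 : (lam : ℂ) ≠ 0 := by exact_mod_cast hlam.ne'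
      rw [lk_of_ge h1, cpl, sc_of_le h]
      have h2 : sc (‖z‖ / lam) y = ‖z‖ / lam := sc_of_ge (by rw [le_div_iff₀ hlam]; linarith)
      have h3 : xi σ z = ph z := by rw [xi, sc_of_le h, ph]
      have h4 : xi (‖z‖ / lam) y = y / ((‖z‖ / lam : ℝ) : ℂ) := by rw [xi, h2]
      rw [h3, h4]
      push_cast
      field_simp

theorem Ls_zero_scale {lam : ℝ} (hlam : 0 < lam) (c : List ℕ) (p : Sp c) :
    Ls lam 0 c 0 p = Fl lam c p := by
  induction c with
  | nil => rfl
  | cons a c ih =>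
    cases c with
    | nil =>
      obtain ⟨X, z⟩ := (p : Sp [] × ℂ)
      show (sc 0 z : ℂ) * xi 0 z ^ a = ((‖z‖ : ℝ) : ℂ) * ph z ^ a
      rw [sc_zero_left, xi_zero_left]
    | cons b c =>
      obtain ⟨X, z⟩ := (p : Sp (b :: c) × ℂ)
      have e1 : Ls lam 0 (a :: b :: c) 0 ((X, z) : Sp (b :: c) × ℂ) =
        Ls lam 0 (b :: c) (0 * (sc 0 z / lam)) X + cpl lam 0 a (X : Sp c × ℂ).2 z := rfl
      have e2 : Fl lam (a :: b :: c) ((X, z) : Sp (b :: c) × ℂ) =
        Fl lam (b :: c) X + lk lam a (X : Sp c × ℂ).2 z := rfl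
      exact e1.trans ((by rw [zero_mul, ih X, cpl_of_le hlam a _ (norm_nonneg z)] :
        _ = Fl lam (b :: c) X + lk lam a (X : Sp c × ℂ).2 z).trans e2.symm)

/-! ### Homogeneity -/

theorem sc_smul {r : ℝ} (hr : 0 ≤ r) (σ : ℝ) (z : ℂ) : sc (r * σ) (r • z) = r * sc σ z := by
  rw [sc, sc, norm_smul, Real.norm_of_nonneg hr, mul_max_of_nonneg _ _ hr]

theorem xi_smul {r : ℝ} (hr : 0 < r) (σ : ℝ) (z : ℂ) : xi (r * σ) (r • z) = xi σ z := by
  rw [xi, xi, sc_smul hr.le, Complex.real_smul]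
  push_cast
  rw [mul_div_mul_left _ _ (by exact_mod_cast hr.ne')]

theorem hd_smul {r : ℝ} (hr : 0 ≤ r) (σ : ℝ) (a : ℕ) (z : ℂ) :
    (sc (r * σ) (r • z) : ℂ) * xi (r * σ) (r • z) ^ a = r • ((sc σ z : ℂ) * xi σ z ^ a) := by
  rcases hr.eq_or_lt with rfl | hr0
  · rw [sc_smul le_rfl, zero_mul, zero_smul]
    simp
  · rw [sc_smul hr, xi_smul hr0, Complex.real_smul]
    push_cast
    ring

theorem cpl_smul {r : ℝ} (hr : 0 ≤ r) (lam σ : ℝ) (a : ℕ) (y z : ℂ) :
    cpl lam (r * σ) a (r • y) (r • z) = r • cpl lam σ a y z := by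
  rw [cpl, cpl, hd_smul hr, sc_smul hr]
  rcases hr.eq_or_lt with rfl | hr0
  · rw [zero_smul, zero_smul, zero_mul, zero_smul]
  · have e : r * sc σ z / lam = r * (sc σ z / lam) := mul_div_assoc _ _ _
    rw [e, xi_smul hr0, smul_mul_assoc]

/-- **Homogeneity** (scale and point together). -/
theorem Ls_smul {r : ℝ} (hr : 0 ≤ r) (lam u : ℝ) (c : List ℕ) (σ : ℝ) (p : Sp c) :
    Ls lam u c (r * σ) (r • p) = r • Ls lam u c σ p := by
  induction c generalizing σ with
  | nil => rw [Ls_nil, Ls_nil, smul_zero]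
  | cons a c ih =>
    cases c with
    | nil =>
      obtain ⟨X, z⟩ := (p : Sp [] × ℂ)
      exact hd_smul hr σ a z
    | cons b c =>
      obtain ⟨X, z⟩ := (p : Sp (b :: c) × ℂ)
      have e1 : Ls lam u (a :: b :: c) (r * σ) (r • ((X, z) : Sp (b :: c) × ℂ)) =
        Ls lam u (b :: c) (u * (sc (r * σ) (r • z) / lam)) (r • X) +
          cpl lam (r * σ) a (r • (X : Sp c × ℂ).2) (r • z) := rfl
      have e2 : Ls lam u (a :: b :: c) σ ((X, z) : Sp (b :: c) × ℂ) =
        Ls lam u (b :: c) (u * (sc σ z / lam)) X + cpl lam σ a (X : Sp c × ℂ).2 z := rfl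
      have e3 : u * (sc (r * σ) (r • z) / lam) = r * (u * (sc σ z / lam)) := by
        rw [sc_smul hr]; ring
      refine e1.trans ?_
      rw [e3, ih, cpl_smul hr, ← smul_add]
      exact congrArg (fun w => r • w) e2.symm

/-- Homogeneity at external scale `0`. -/
theorem hom1_Ls (lam u : ℝ) (c : List ℕ) : Hom1 (Ls lam u c 0) := by
  intro r hr p
  have := Ls_smul hr lam u c 0 p
  rwa [mul_zero] at this

/-! ### Continuity -/

theorem continuous_of_bound {X Z : Type*} [TopologicalSpace X] [NormedAddCommGroup Z] {F : X → Z}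
    (B : X → X → ℝ) (hB : ∀ x, Continuous (B x)) (hB0 : ∀ x, B x x = 0)
    (h : ∀ x y, ‖F y - F x‖ ≤ B x y) : Continuous F := by
  refine continuous_iff_continuousAt.mpr fun x => ?_
  rw [ContinuousAt, tendsto_iff_norm_sub_tendsto_zero]
  have h1 : Tendsto (B x) (𝓝 x) (𝓝 0) := by
    have := (hB x).tendsto x
    rwa [hB0] at this
  exact squeeze_zero (fun _ => norm_nonneg _) (h x) h1

theorem continuous_hdm {a : ℕ} (ha : 1 ≤ a) :
    Continuous (fun q : ℝ × ℂ => (sc q.1 q.2 : ℂ) * xi q.1 q.2 ^ a) := by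
  refine continuous_of_bound (fun x y => (a : ℝ) * (‖y.2 - x.2‖ + |sc y.1 y.2 - sc x.1 x.2|))
    (fun x => ?_) (fun x => ?_) (fun x y => mono_lip (norm_le_sc _ _) (norm_le_sc _ _) ha)
  · have := continuous_scC
    fun_prop
  · simp

theorem continuous_cpl {lam : ℝ} (hlam : 0 < lam) {a : ℕ} (ha : 1 ≤ a) :
    Continuous (fun q : ℝ × (ℂ × ℂ) => cpl lam q.1 a q.2.1 q.2.2) := by
  refine continuous_of_bound (fun x y => 2 * lam * ‖y.2.1 - x.2.1‖ +
    (2 * a + 1) * max ‖y.2.2 - x.2.2‖ |y.1 - x.1|) (fun x => ?_) (fun x => ?_) (fun x y => ?_)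
  · fun_prop
  · simp
  · have e : cpl lam y.1 a y.2.1 y.2.2 - cpl lam x.1 a x.2.1 x.2.2 =
        (cpl lam y.1 a y.2.1 y.2.2 - cpl lam y.1 a x.2.1 y.2.2) +
        (cpl lam y.1 a x.2.1 y.2.2 - cpl lam x.1 a x.2.1 x.2.2) := by ring
    rw [e]
    exact (norm_add_le _ _).trans (add_le_add (cpl_lip_snd' hlam _ _ _ _ _)
      (cpl_lip hlam ha _ _ _ _ _))

theorem continuous_cpl_comp {lam : ℝ} (hlam : 0 < lam) {a : ℕ} (ha : 1 ≤ a)
    {Y : Type*} [TopologicalSpace Y] {σ : Y → ℝ} {y z : Y → ℂ} (hσ : Continuous σ)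
    (hy : Continuous y) (hz : Continuous z) : Continuous (fun x => cpl lam (σ x) a (y x) (z x)) :=
  (continuous_cpl hlam ha).comp (hσ.prodMk (hy.prodMk hz))

theorem continuous_Ls_comp {lam : ℝ} {c : List ℕ}
    (h : Continuous (fun q : (ℝ × ℝ) × Sp c => Ls lam q.1.1 c q.1.2 q.2))
    {Y : Type*} [TopologicalSpace Y] {u σ : Y → ℝ} {X : Y → Sp c} (hu : Continuous u)
    (hσ : Continuous σ) (hX : Continuous X) : Continuous (fun y => Ls lam (u y) c (σ y) (X y)) :=
  h.comp ((hu.prodMk hσ).prodMk hX)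

/-- **Continuity of the local scale functions** in the deformation parameter, the external scale
and the point. -/
theorem continuous_Ls {lam : ℝ} (hlam : 0 < lam) (c : List ℕ) (hc : ∀ a ∈ c, 1 ≤ a) :
    Continuous (fun q : (ℝ × ℝ) × Sp c => Ls lam q.1.1 c q.1.2 q.2) := by
  induction c with
  | nil => exact continuous_const
  | cons a c ih =>
    have ha := hc a List.mem_cons_self
    have hz : Continuous (fun q : (ℝ × ℝ) × Sp (a :: c) => (q.2 : Sp c × ℂ).2) :=
      (continuous_sndSp a c).comp continuous_snd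
    have hX : Continuous (fun q : (ℝ × ℝ) × Sp (a :: c) => (q.2 : Sp c × ℂ).1) :=
      (continuous_fstSp a c).comp continuous_snd
    have hσz : Continuous (fun q : (ℝ × ℝ) × Sp (a :: c) => (q.1.2, (q.2 : Sp c × ℂ).2)) :=
      (continuous_snd.comp continuous_fst).prodMk hz
    cases c with
    | nil => exact (continuous_hdm ha).comp hσz
    | cons b c =>
      have h1 := ih fun d hd => hc d (List.mem_cons_of_mem a hd)
      have hs : Continuous (fun q : (ℝ × ℝ) × Sp (a :: b :: c) =>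
          q.1.1 * (sc q.1.2 (q.2 : Sp (b :: c) × ℂ).2 / lam)) :=
        (continuous_fst.comp continuous_fst).mul ((continuous_scC.comp hσz).div_const lam)
      have h2 := continuous_Ls_comp h1 (continuous_fst.comp continuous_fst) hs hX
      have hy : Continuous (fun q : (ℝ × ℝ) × Sp (a :: b :: c) =>
          ((q.2 : Sp (b :: c) × ℂ).1 : Sp c × ℂ).2) := (continuous_sndSp b c).comp hX
      have h3 := continuous_cpl_comp hlam ha (continuous_snd.comp continuous_fst) hy hz
      exact h2.add h3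

end Vale.Agent.P268.T.H155
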