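import Vale.Agent.P268.T.H963.Homeo
import Vale.Agent.P268.T.H128.Ind

/-!
# P268, topological half, block P0: chain polynomials are stably equivalent to link chains
-/

namespace Vale.Agent.P268.T.P0

open Set Filter Topology Vale.Agent.P268.Z

/-- **Block P0.** -/
theorem hEqv_P_Fl {lam : ℝ} (hlam : 1 ≤ lam) {c : List ℕ} (hc : ∀ a ∈ c, 2 ≤ a)
    (hK : 8 * KL c ≤ lam) : HEqv (P c) (Fl lam c) :=
  hEqv_P_Fl_of hlam hc hK (continuous_Ph0 (by linarith) hc)
    (bijective_Ph (by linarith) hc le_rfl)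

/-- **Block P0** (in the form of 128). -/
theorem blockP0 : RV.BlockP0 := fun c _ hc =>
  ⟨max 1 (8 * KL c), fun _ hlam =>
    hEqv_P_Fl ((le_max_left _ _).trans hlam) hc ((le_max_right _ _).trans hlam)⟩

end Vale.Agent.P268.T.P0

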