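import Vale.Agent.P268.T.H963.Cpl

/-!
# P268, topological half, block P0: the path from local scales to the link chain
-/

set_option linter.unusedSectionVars false

namespace Vale.Agent.P268.T.P0

open Set Filter Topology

/-! ### Lipschitz estimates -/

theorem sc_mul_xi (σ : ℝ) (z : ℂ) : (sc σ z : ℂ) * xi σ z = z := by
  rcases (sc_nonneg (σ := σ) z).eq_or_lt with h | h
  · have hz : ‖z‖ ≤ 0 := (norm_le_sc σ z).trans h.symm.le
    rw [norm_le_zero_iff.mp hz, xi_zero_right, mul_zero]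
  · have : (sc σ z : ℂ) ≠ 0 := by exact_mod_cast h.ne'
    rw [xi, mul_div_cancel₀ _ this]

theorem abs_sc_sub (σ σ' : ℝ) (z z' : ℂ) :
    |sc σ z - sc σ' z'| ≤ max ‖z - z'‖ |σ - σ'| := by
  refine (abs_max_sub_max_le_max _ _ _ _).trans (max_le_max ?_ le_rfl)
  exact abs_norm_sub_norm_le z z'

/-- `s' ‖ξ - ξ'‖ ≤ ‖z - z'‖ + |s - s'|`. -/
theorem xi_lip (σ σ' : ℝ) (z z' : ℂ) :
    sc σ' z' * ‖xi σ z - xi σ' z'‖ ≤ ‖z - z'‖ + |sc σ z - sc σ' z'| := by
  have h1 : (sc σ' z' : ℂ) * (xi σ z - xi σ' z') =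
      (z - z') + ((sc σ' z' - sc σ z : ℝ) : ℂ) * xi σ z := by
    have e1 := sc_mul_xi σ z
    have e2 := sc_mul_xi σ' z'
    push_cast
    linear_combination e1 - e2
  have h2 : sc σ' z' * ‖xi σ z - xi σ' z'‖ = ‖(sc σ' z' : ℂ) * (xi σ z - xi σ' z')‖ := by
    rw [norm_mul, Complex.norm_real, Real.norm_eq_abs, abs_of_nonneg (sc_nonneg z')]
  rw [h2, h1]
  refine (norm_add_le _ _).trans (add_le_add le_rfl ?_)
  rw [norm_mul, Complex.norm_real, Real.norm_eq_abs, abs_sub_comm]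
  exact mul_le_of_le_one_right (abs_nonneg _) (norm_xi_le σ z)

theorem sc_xi_pow_lip (a : ℕ) (σ σ' : ℝ) (z z' : ℂ) :
    ‖(sc σ z : ℂ) * xi σ z ^ a - (sc σ' z' : ℂ) * xi σ' z' ^ a‖ ≤
      |sc σ z - sc σ' z'| + a * (‖z - z'‖ + |sc σ z - sc σ' z'|) := by
  induction a with
  | zero =>
    rw [pow_zero, pow_zero, mul_one, mul_one, ← Complex.ofReal_sub, Complex.norm_real,
      Real.norm_eq_abs]
    simp
  | succ a ih =>
    have h1 : (sc σ z : ℂ) * xi σ z ^ (a + 1) - (sc σ' z' : ℂ) * xi σ' z' ^ (a + 1) =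
        ((sc σ z : ℂ) * xi σ z ^ a - (sc σ' z' : ℂ) * xi σ' z' ^ a) * xi σ z +
        (sc σ' z' : ℂ) * (xi σ z - xi σ' z') * xi σ' z' ^ a := by ring
    rw [h1]
    refine (norm_add_le _ _).trans ?_
    have h2 : ‖((sc σ z : ℂ) * xi σ z ^ a - (sc σ' z' : ℂ) * xi σ' z' ^ a) * xi σ z‖ ≤
        |sc σ z - sc σ' z'| + a * (‖z - z'‖ + |sc σ z - sc σ' z'|) := by
      rw [norm_mul]
      exact (mul_le_of_le_one_right (norm_nonneg _) (norm_xi_le σ z)).trans ih
    have h3 : ‖(sc σ' z' : ℂ) * (xi σ z - xi σ' z') * xi σ' z' ^ a‖ ≤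
        ‖z - z'‖ + |sc σ z - sc σ' z'| := by
      rw [norm_mul, norm_mul, Complex.norm_real, Real.norm_eq_abs, abs_of_nonneg (sc_nonneg z'),
        norm_pow]
      refine (mul_le_of_le_one_right (by have := sc_nonneg (σ := σ') z'; positivity) ?_).trans
        (xi_lip σ σ' z z')
      exact pow_le_one₀ (norm_nonneg _) (norm_xi_le σ' z')
    push_cast
    linarith

/-- The coupling is Lipschitz in the head variable and the external scale, with a constant
independent of `lam`. -/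
theorem cpl_lip {lam : ℝ} (hlam : 0 < lam) (a : ℕ) (σ σ' : ℝ) (y z z' : ℂ) :
    ‖cpl lam σ a y z - cpl lam σ' a y z'‖ ≤
      (a + 2) * |sc σ z - sc σ' z'| + a * ‖z - z'‖ := by
  have h1 : cpl lam σ a y z - cpl lam σ' a y z' =
      ((sc σ z : ℂ) * xi σ z ^ a - (sc σ' z' : ℂ) * xi σ' z' ^ a) * xi (sc σ z / lam) y +
      xi σ' z' ^ a * ((sc σ' z' : ℂ) * (xi (sc σ z / lam) y - xi (sc σ' z' / lam) y)) := by
    rw [cpl, cpl]; ring
  rw [h1]
  refine (norm_add_le _ _).trans ?_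
  have h2 : ‖((sc σ z : ℂ) * xi σ z ^ a - (sc σ' z' : ℂ) * xi σ' z' ^ a) *
      xi (sc σ z / lam) y‖ ≤ |sc σ z - sc σ' z'| + a * (‖z - z'‖ + |sc σ z - sc σ' z'|) := by
    rw [norm_mul]
    exact (mul_le_of_le_one_right (norm_nonneg _) (norm_xi_le _ y)).trans
      (sc_xi_pow_lip a σ σ' z z')
  have h3 : ‖xi σ' z' ^ a * ((sc σ' z' : ℂ) * (xi (sc σ z / lam) y - xi (sc σ' z' / lam) y))‖ ≤
      |sc σ z - sc σ' z'| := by
    rw [norm_mul, norm_pow, norm_mul, Complex.norm_real, Real.norm_eq_abs,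
      abs_of_nonneg (sc_nonneg z')]
    have h4 := xi_lip (sc σ z / lam) (sc σ' z' / lam) y y
    rw [sub_self, norm_zero, zero_add] at h4
    have h5 := abs_sc_sub (sc σ z / lam) (sc σ' z' / lam) y y
    rw [sub_self, norm_zero, max_eq_right (abs_nonneg _), ← sub_div, abs_div,
      abs_of_pos hlam] at h5
    have h6 : sc σ' z' ≤ lam * sc (sc σ' z' / lam) y := by
      have := le_sc (sc σ' z' / lam) y
      rwa [div_le_iff₀ hlam, mul_comm] at this
    have h7 : sc σ' z' * ‖xi (sc σ z / lam) y - xi (sc σ' z' / lam) y‖ ≤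
        |sc σ z - sc σ' z'| := by
      calc sc σ' z' * ‖xi (sc σ z / lam) y - xi (sc σ' z' / lam) y‖
          ≤ lam * sc (sc σ' z' / lam) y * ‖xi (sc σ z / lam) y - xi (sc σ' z' / lam) y‖ :=
            mul_le_mul_of_nonneg_right h6 (norm_nonneg _)
        _ = lam * (sc (sc σ' z' / lam) y * ‖xi (sc σ z / lam) y - xi (sc σ' z' / lam) y‖) := by
            ring
        _ ≤ lam * (|sc σ z - sc σ' z'| / lam) :=
            mul_le_mul_of_nonneg_left (h4.trans h5) hlam.le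
        _ = _ := by field_simp
    refine (mul_le_of_le_one_left (by have := sc_nonneg (σ := σ') z'; positivity) ?_).trans h7
    exact pow_le_one₀ (norm_nonneg _) (norm_xi_le σ' z')
  linarith

/-- The Lipschitz constant. -/
noncomputable def KL : List ℕ → ℝ
  | [] => 0
  | a :: c => (2 * a + 2) + KL c

theorem KL_cons (a : ℕ) (c : List ℕ) : KL (a :: c) = (2 * a + 2) + KL c := rfl

theorem KL_nonneg (c : List ℕ) : 0 ≤ KL c := by
  induction c with
  | nil => exact le_rfl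
  | cons a c ih => rw [KL_cons]; positivity

/-- Lipschitz dependence on the external scale. -/
theorem Ls_lipS {lam : ℝ} (hlam : 1 ≤ lam) {u : ℝ} (hu0 : 0 ≤ u) (hu1 : u ≤ 1) (c : List ℕ)
    {σ σ' : ℝ} (p : Sp c) : ‖Ls lam u c σ p - Ls lam u c σ' p‖ ≤ KL c * |σ - σ'| := by
  have hlam0 : 0 < lam := by linarith
  induction c generalizing σ σ' with
  | nil => rw [Ls_nil, Ls_nil, sub_self, norm_zero, KL, zero_mul]
  | cons a c ih =>
    obtain ⟨X, z⟩ := (p : Sp c × ℂ)
    have h1 : |sc σ z - sc σ' z| ≤ |σ - σ'| := by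
      have := abs_sc_sub σ σ' z z
      rwa [sub_self, norm_zero, max_eq_right (abs_nonneg _)] at this
    cases c with
    | nil =>
      have h2 := sc_xi_pow_lip a σ σ' z z
      rw [sub_self, norm_zero, zero_add] at h2
      show ‖(sc σ z : ℂ) * xi σ z ^ a - (sc σ' z : ℂ) * xi σ' z ^ a‖ ≤ _
      refine h2.trans ?_
      rw [KL_cons, KL]
      nlinarith [abs_nonneg (σ - σ'), (Nat.cast_nonneg a : (0 : ℝ) ≤ a)]
    | cons b c =>
      have h2 := cpl_lip hlam0 a σ σ' (X : Sp c × ℂ).2 z z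
      rw [sub_self, norm_zero, mul_zero, add_zero] at h2
      have h3 := ih (σ := u * (sc σ z / lam)) (σ' := u * (sc σ' z / lam)) X
      have h4 : |u * (sc σ z / lam) - u * (sc σ' z / lam)| ≤ |σ - σ'| := by
        rw [← mul_sub, ← sub_div, abs_mul, abs_of_nonneg hu0, abs_div, abs_of_pos hlam0]
        refine (mul_le_of_le_one_left (by positivity) hu1).trans ?_
        exact (div_le_self (abs_nonneg _) hlam).trans h1
      show ‖Ls lam u (b :: c) (u * (sc σ z / lam)) X + cpl lam σ a (X : Sp c × ℂ).2 z -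
        (Ls lam u (b :: c) (u * (sc σ' z / lam)) X + cpl lam σ' a (X : Sp c × ℂ).2 z)‖ ≤ _
      rw [add_sub_add_comm]
      refine (norm_add_le _ _).trans ?_
      rw [KL_cons]
      have h5 : KL (b :: c) * |u * (sc σ z / lam) - u * (sc σ' z / lam)| ≤
          KL (b :: c) * |σ - σ'| := mul_le_mul_of_nonneg_left h4 (KL_nonneg _)
      nlinarith [abs_nonneg (σ - σ'), (Nat.cast_nonneg a : (0 : ℝ) ≤ a)]

/-- Lipschitz dependence on the head variable. -/
theorem Ls_lipZ {lam : ℝ} (hlam : 1 ≤ lam) {u : ℝ} (hu0 : 0 ≤ u) (hu1 : u ≤ 1) (a : ℕ)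
    (c : List ℕ) (σ : ℝ) (X : Sp c) (z z' : ℂ) :
    ‖Ls lam u (a :: c) σ ((X, z) : Sp c × ℂ) - Ls lam u (a :: c) σ ((X, z') : Sp c × ℂ)‖ ≤
      KL (a :: c) * ‖z - z'‖ := by
  have hlam0 : 0 < lam := by linarith
  have h1 : |sc σ z - sc σ z'| ≤ ‖z - z'‖ := by
    have := abs_sc_sub σ σ z z'
    rwa [sub_self, abs_zero, max_eq_left (norm_nonneg _)] at this
  cases c with
  | nil =>
    have h2 := sc_xi_pow_lip a σ σ z z'
    show ‖(sc σ z : ℂ) * xi σ z ^ a - (sc σ z' : ℂ) * xi σ z' ^ a‖ ≤ _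
    refine h2.trans ?_
    rw [KL_cons, KL]
    nlinarith [norm_nonneg (z - z'), (Nat.cast_nonneg a : (0 : ℝ) ≤ a)]
  | cons b c =>
    have h2 := cpl_lip hlam0 a σ σ (X : Sp c × ℂ).2 z z'
    have h3 := Ls_lipS hlam hu0 hu1 (b :: c) (σ := u * (sc σ z / lam))
      (σ' := u * (sc σ z' / lam)) X
    have h4 : |u * (sc σ z / lam) - u * (sc σ z' / lam)| ≤ ‖z - z'‖ := by
      rw [← mul_sub, ← sub_div, abs_mul, abs_of_nonneg hu0, abs_div, abs_of_pos hlam0]
      refine (mul_le_of_le_one_left (by positivity) hu1).trans ?_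
      exact (div_le_self (abs_nonneg _) hlam).trans h1
    show ‖Ls lam u (b :: c) (u * (sc σ z / lam)) X + cpl lam σ a (X : Sp c × ℂ).2 z -
      (Ls lam u (b :: c) (u * (sc σ z' / lam)) X + cpl lam σ a (X : Sp c × ℂ).2 z')‖ ≤ _
    rw [add_sub_add_comm]
    refine (norm_add_le _ _).trans ?_
    rw [KL_cons]
    have h5 : KL (b :: c) * |u * (sc σ z / lam) - u * (sc σ z' / lam)| ≤
        KL (b :: c) * ‖z - z'‖ := mul_le_mul_of_nonneg_left h4 (KL_nonneg _)
    nlinarith [norm_nonneg (z - z'), (Nat.cast_nonneg a : (0 : ℝ) ≤ a)]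

/-! ### Continuity -/

theorem cont_squeeze {T : Type*} [TopologicalSpace T] {f : T → ℂ} {s : T → ℝ} (hs : Continuous s)
    (hb : ∀ t, ‖f t‖ ≤ s t) (hc : ∀ t, 0 < s t → ContinuousAt f t) : Continuous f := by
  rw [continuous_iff_continuousAt]
  intro t
  rcases ((norm_nonneg _).trans (hb t)).eq_or_lt with h | h
  · have h0 : f t = 0 := norm_le_zero_iff.mp ((hb t).trans h.symm.le)
    rw [ContinuousAt, h0]
    refine squeeze_zero_norm hb ?_
    have := hs.tendsto t
    rwa [← h] at this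
  · exact hc t h

theorem continuous_sc : Continuous fun q : ℝ × ℂ => sc q.1 q.2 :=
  continuous_snd.norm.max continuous_fst

theorem continuousAt_xi {q : ℝ × ℂ} (h : 0 < sc q.1 q.2) :
    ContinuousAt (fun q : ℝ × ℂ => xi q.1 q.2) q := by
  refine continuousAt_snd.div (Complex.continuous_ofReal.comp continuous_sc).continuousAt ?_
  have : sc q.1 q.2 ≠ 0 := h.ne'
  exact_mod_cast this

theorem norm_cpl_le (lam σ : ℝ) (a : ℕ) (y z : ℂ) : ‖cpl lam σ a y z‖ ≤ sc σ z := by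
  rw [cpl, norm_mul, norm_mul, norm_pow, Complex.norm_real, Real.norm_eq_abs,
    abs_of_nonneg (sc_nonneg z)]
  have h1 : ‖xi σ z‖ ^ a ≤ 1 := pow_le_one₀ (norm_nonneg _) (norm_xi_le σ z)
  have h2 := norm_xi_le (sc σ z / lam) y
  have h3 := sc_nonneg (σ := σ) z
  calc sc σ z * ‖xi σ z‖ ^ a * ‖xi (sc σ z / lam) y‖
      ≤ sc σ z * 1 * 1 := by gcongr
    _ = sc σ z := by ring

theorem continuous_cpl {lam : ℝ} (hlam : 0 < lam) (a : ℕ) :
    Continuous fun q : ℝ × (ℂ × ℂ) => cpl lam q.1 a q.2.1 q.2.2 := by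
  have hs : Continuous fun q : ℝ × (ℂ × ℂ) => sc q.1 q.2.2 :=
    continuous_sc.comp (continuous_fst.prodMk (continuous_snd.comp continuous_snd))
  refine cont_squeeze hs (fun q => norm_cpl_le _ _ _ _ _) fun q hq => ?_
  have h1 : ContinuousAt (fun q : ℝ × (ℂ × ℂ) => xi q.1 q.2.2) q :=
    ContinuousAt.comp (f := fun q : ℝ × (ℂ × ℂ) => (q.1, q.2.2))
      (g := fun q : ℝ × ℂ => xi q.1 q.2) (continuousAt_xi hq)
      (continuous_fst.prodMk (continuous_snd.comp continuous_snd)).continuousAt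
  have h2 : ContinuousAt (fun q : ℝ × (ℂ × ℂ) => xi (sc q.1 q.2.2 / lam) q.2.1) q := by
    refine ContinuousAt.comp (f := fun q : ℝ × (ℂ × ℂ) => (sc q.1 q.2.2 / lam, q.2.1))
      (g := fun q : ℝ × ℂ => xi q.1 q.2) (continuousAt_xi (sc_pos (div_pos hq hlam) _)) ?_
    exact ((hs.div_const lam).prodMk (continuous_fst.comp continuous_snd)).continuousAt
  exact ((Complex.continuous_ofReal.comp hs).continuousAt.mul (h1.pow a)).mul h2

theorem continuous_single (a : ℕ) :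
    Continuous fun q : ℝ × ℂ => (sc q.1 q.2 : ℂ) * xi q.1 q.2 ^ a := by
  refine cont_squeeze continuous_sc (fun q => ?_) fun q hq => ?_
  · rw [norm_mul, norm_pow, Complex.norm_real, Real.norm_eq_abs, abs_of_nonneg (sc_nonneg q.2)]
    exact mul_le_of_le_one_right (sc_nonneg _) (pow_le_one₀ (norm_nonneg _) (norm_xi_le _ _))
  · exact (Complex.continuous_ofReal.comp continuous_sc).continuousAt.mul
      ((continuousAt_xi hq).pow a)

/-- The head variable of a nonempty chain. -/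
def nx (b : ℕ) (c : List ℕ) (X : Sp (b :: c)) : ℂ := (X : Sp c × ℂ).2

theorem continuous_nx (b : ℕ) (c : List ℕ) : Continuous (nx b c) :=
  (continuous_snd : Continuous (Prod.snd : Sp c × ℂ → ℂ))

theorem continuous_Ls {lam : ℝ} (hlam : 0 < lam) (c : List ℕ) :
    Continuous fun q : (ℝ × ℝ) × Sp c => Ls lam q.1.1 c q.1.2 q.2 := by
  induction c with
  | nil => exact continuous_const
  | cons a c ih =>
    cases c with
    | nil =>
      have h1 : Continuous fun q : (ℝ × ℝ) × (Sp [] × ℂ) => (q.1.2, q.2.2) := by fun_prop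
      exact (continuous_single a).comp h1
    | cons b c =>
      have hs : Continuous fun q : (ℝ × ℝ) × (Sp (b :: c) × ℂ) => sc q.1.2 q.2.2 := by
        have h1 : Continuous fun q : (ℝ × ℝ) × (Sp (b :: c) × ℂ) => (q.1.2, q.2.2) := by fun_prop
        exact continuous_sc.comp h1
      have h2 : Continuous fun q : (ℝ × ℝ) × (Sp (b :: c) × ℂ) =>
          ((q.1.1, q.1.1 * (sc q.1.2 q.2.2 / lam)), q.2.1) := by
        refine Continuous.prodMk (Continuous.prodMk (by fun_prop) ?_) (by fun_prop)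
        exact (continuous_fst.comp continuous_fst).mul (hs.div_const lam)
      have h3 : Continuous fun q : (ℝ × ℝ) × (Sp (b :: c) × ℂ) =>
          (q.1.2, (nx b c q.2.1, q.2.2)) :=
        (continuous_snd.comp continuous_fst).prodMk
          (((continuous_nx b c).comp (continuous_fst.comp continuous_snd)).prodMk
            (continuous_snd.comp continuous_snd))
      have h4 : Continuous fun q : (ℝ × ℝ) × (Sp (b :: c) × ℂ) =>
          Ls lam q.1.1 (b :: c) (q.1.1 * (sc q.1.2 q.2.2 / lam)) q.2.1 := ih.comp h2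
      have h5 : Continuous fun q : (ℝ × ℝ) × (Sp (b :: c) × ℂ) =>
          cpl lam q.1.2 a (nx b c q.2.1) q.2.2 :=
        Continuous.comp (g := fun q : ℝ × (ℂ × ℂ) => cpl lam q.1 a q.2.1 q.2.2)
          (f := fun q : (ℝ × ℝ) × (Sp (b :: c) × ℂ) => (q.1.2, (nx b c q.2.1, q.2.2)))
          (continuous_cpl hlam a) h3
      exact Continuous.add h4 h5

/-! ### Homogeneity -/

theorem sc_smul {r : ℝ} (hr : 0 ≤ r) (σ : ℝ) (z : ℂ) : sc (r * σ) (r • z) = r * sc σ z := by
  rw [sc, sc, norm_smul, Real.norm_eq_abs, abs_of_nonneg hr, mul_max_of_nonneg _ _ hr]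

theorem xi_smul {r : ℝ} (hr : 0 < r) (σ : ℝ) (z : ℂ) : xi (r * σ) (r • z) = xi σ z := by
  rw [xi, xi, sc_smul hr.le, Complex.real_smul]
  have : (r : ℂ) ≠ 0 := by exact_mod_cast hr.ne'
  push_cast
  rw [mul_div_mul_left _ _ this]

theorem cpl_smul (lam : ℝ) {r : ℝ} (hr : 0 ≤ r) (σ : ℝ) (a : ℕ) (y z : ℂ) :
    cpl lam (r * σ) a (r • y) (r • z) = r • cpl lam σ a y z := by
  rcases hr.eq_or_lt with rfl | hr
  · rw [cpl, sc_smul le_rfl]
    simp
  · rw [cpl, cpl, sc_smul hr.le, xi_smul hr, mul_div_assoc, xi_smul hr, Complex.real_smul]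
    push_cast
    ring

theorem Ls_smul (lam u : ℝ) {r : ℝ} (hr : 0 ≤ r) (c : List ℕ) (σ : ℝ) (p : Sp c) :
    Ls lam u c (r * σ) (r • p) = r • Ls lam u c σ p := by
  induction c generalizing σ with
  | nil => rw [Ls_nil, Ls_nil, smul_zero]
  | cons a c ih =>
    obtain ⟨X, z⟩ := (p : Sp c × ℂ)
    cases c with
    | nil =>
      show (sc (r * σ) (r • z) : ℂ) * xi (r * σ) (r • z) ^ a =
        r • ((sc σ z : ℂ) * xi σ z ^ a)
      rcases hr.eq_or_lt with rfl | hr
      · rw [sc_smul le_rfl]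
        simp
      · rw [sc_smul hr.le, xi_smul hr, Complex.real_smul]
        push_cast
        ring
    | cons b c =>
      show Ls lam u (b :: c) (u * (sc (r * σ) (r • z) / lam)) (r • X) +
        cpl lam (r * σ) a (r • (X : Sp c × ℂ).2) (r • z) =
        r • (Ls lam u (b :: c) (u * (sc σ z / lam)) X + cpl lam σ a (X : Sp c × ℂ).2 z)
      rw [cpl_smul lam hr, smul_add, sc_smul hr, ← ih]
      congr 2
      ring

end Vale.Agent.P268.T.P0
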