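import Vale.Agent.P268.T.H963.Path

/-!
# P268, topological half, block P0: regularity along the path
-/

set_option linter.unusedSectionVars false

namespace Vale.Agent.P268.T.P0

open Set Filter Topology

/-- Adding a family whose Lipschitz constant tends to `0`. -/
theorem regAt_add_small {E T : Type*} [NormedAddCommGroup E] [NormedSpace ℝ E]
    [TopologicalSpace T] {s : Set T} {F G : T → E → ℂ} {t₀ : T} {x₀ : E} (h : RegAt s F t₀ x₀)
    (hG : ∀ ε > 0, ∃ U ∈ 𝓝 x₀, ∀ᶠ t in 𝓝[s] t₀, ∀ x ∈ U, ∀ y ∈ U,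
      ‖G t x - G t y‖ ≤ ε * ‖x - y‖) :
    RegAt s (fun t x => F t x + G t x) t₀ x₀ := by
  obtain ⟨k, hk0, hk1, A, U, hU, hev⟩ := h
  have hA : 0 < ‖A‖ + 1 := by positivity
  obtain ⟨V, hV, hev'⟩ := hG ((1 - k) / (2 * (‖A‖ + 1))) (div_pos (by linarith) (by linarith))
  refine ⟨k + (1 - k) / 2, by linarith, by linarith, A, U ∩ V, inter_mem hU hV, ?_⟩
  filter_upwards [hev, hev'] with t e1 e2
  refine MRegOn.add_lip (e1.mono inter_subset_left) (l := (1 - k) / 2) fun x hx c hc => ?_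
  refine (e2 _ hc.2 _ hx.2).trans ?_
  rw [add_sub_cancel_left]
  have h5 : ‖A c‖ ≤ (‖A‖ + 1) * ‖c‖ :=
    (A.le_opNorm c).trans (mul_le_mul_of_nonneg_right (by linarith) (norm_nonneg _))
  calc (1 - k) / (2 * (‖A‖ + 1)) * ‖A c‖
      ≤ (1 - k) / (2 * (‖A‖ + 1)) * ((‖A‖ + 1) * ‖c‖) :=
        mul_le_mul_of_nonneg_left h5 (div_nonneg (by linarith) (by linarith))
    _ = (1 - k) / 2 * ‖c‖ := by field_simp

/-- The coupling has small slope in `y` (off `0`) when the head variable and the external scale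
are small. -/
theorem cpl_small {lam : ℝ} (hlam : 0 < lam) (a : ℕ) {y₀ : ℂ} (hy₀ : y₀ ≠ 0) {ε : ℝ}
    (hε : 0 < ε) : ∃ δ > 0, ∀ σ z, sc σ z < δ → ∀ y y' : ℂ, ‖y₀‖ / 2 < ‖y'‖ →
      ‖cpl lam σ a y z - cpl lam σ a y' z‖ ≤ ε * ‖y - y'‖ := by
  have h0 : 0 < ‖y₀‖ := norm_pos_iff.mpr hy₀
  refine ⟨ε * ‖y₀‖ / 4, by positivity, fun σ z hs y y' hy' => ?_⟩
  have h1 : cpl lam σ a y z - cpl lam σ a y' z =
      (sc σ z : ℂ) * xi σ z ^ a * (xi (sc σ z / lam) y - xi (sc σ z / lam) y') := by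
    rw [cpl, cpl]; ring
  rw [h1, norm_mul, norm_mul, norm_pow, Complex.norm_real, Real.norm_eq_abs,
    abs_of_nonneg (sc_nonneg z)]
  have h2 := xi_lip (sc σ z / lam) (sc σ z / lam) y y'
  have h3 := abs_sc_sub (sc σ z / lam) (sc σ z / lam) y y'
  rw [sub_self, abs_zero, max_eq_left (norm_nonneg _)] at h3
  have h4 : ‖y₀‖ / 2 ≤ sc (sc σ z / lam) y' := hy'.le.trans (norm_le_sc _ _)
  have h5 : ‖xi (sc σ z / lam) y - xi (sc σ z / lam) y'‖ ≤ 4 / ‖y₀‖ * ‖y - y'‖ := by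
    have h6 : ‖y₀‖ / 2 * ‖xi (sc σ z / lam) y - xi (sc σ z / lam) y'‖ ≤ 2 * ‖y - y'‖ := by
      refine (mul_le_mul_of_nonneg_right h4 (norm_nonneg _)).trans (h2.trans ?_)
      linarith
    rw [div_mul_eq_mul_div, le_div_iff₀ h0]
    linarith
  have h7 : ‖xi σ z‖ ^ a ≤ 1 := pow_le_one₀ (norm_nonneg _) (norm_xi_le σ z)
  have h8 := sc_nonneg (σ := σ) z
  calc sc σ z * ‖xi σ z‖ ^ a * ‖xi (sc σ z / lam) y - xi (sc σ z / lam) y'‖
      ≤ (ε * ‖y₀‖ / 4) * 1 * (4 / ‖y₀‖ * ‖y - y'‖) := by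
        gcongr
    _ = ε * ‖y - y'‖ := by field_simp

/-- The parameter domain: `u ∈ [0, 1]`, external scale `σ ≥ 0`. -/
abbrev PD : Set (ℝ × ℝ) := Icc (0 : ℝ) 1 ×ˢ Ici (0 : ℝ)

/-- Regularity at external scale `0`. -/
def RA (lam : ℝ) (c : List ℕ) : Prop :=
  ∀ u₀ ∈ Icc (0 : ℝ) 1, ∀ p₀ : Sp c, p₀ ≠ 0 →
    RegAt PD (fun (t : ℝ × ℝ) p => Ls lam t.1 c t.2 p) (u₀, 0) p₀

/-- Regularity in the other variables where the head variable vanishes. -/
def RN (lam : ℝ) (a : ℕ) (c : List ℕ) : Prop :=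
  ∀ u₀ ∈ Icc (0 : ℝ) 1, ∀ X₀ : Sp c, X₀ ≠ 0 →
    RegAt (PD ×ˢ (univ : Set ℂ))
      (fun (t : (ℝ × ℝ) × ℂ) (X : Sp c) => Ls lam t.1.1 (a :: c) t.1.2 ((X, t.2) : Sp c × ℂ))
      ((u₀, 0), 0) X₀

theorem RN_nil (lam : ℝ) (a : ℕ) : RN lam a [] := by
  intro u₀ _ X₀ hX₀
  exfalso
  refine hX₀ ?_
  exact @Subsingleton.elim (EuclideanSpace ℂ (Fin 0)) _ X₀ 0

/-- The parameter map of the first tail. -/
noncomputable def pm (lam : ℝ) (t : (ℝ × ℝ) × ℂ) : ℝ × ℝ := (t.1.1, t.1.1 * (sc t.1.2 t.2 / lam))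

theorem continuous_pm (lam : ℝ) : Continuous (pm lam) := by
  have h1 : Continuous fun t : (ℝ × ℝ) × ℂ => sc t.1.2 t.2 :=
    continuous_sc.comp ((continuous_snd.comp continuous_fst).prodMk continuous_snd)
  exact (continuous_fst.comp continuous_fst).prodMk
    ((continuous_fst.comp continuous_fst).mul (h1.div_const lam))

theorem pm_zero (lam u₀ : ℝ) : pm lam ((u₀, 0), 0) = (u₀, 0) := by
  simp [pm, sc]

theorem mapsTo_pm {lam : ℝ} (hlam : 0 < lam) : MapsTo (pm lam) (PD ×ˢ (univ : Set ℂ)) PD := by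
  rintro ⟨⟨u, σ⟩, z⟩ ⟨⟨hu, hσ⟩, -⟩
  exact ⟨hu, mul_nonneg hu.1 (div_nonneg (sc_nonneg _) hlam.le)⟩

/-- The induction step for `RN`. -/
theorem RN_cons {lam : ℝ} (hlam : 0 < lam) (a b : ℕ) (c : List ℕ) (hA : RA lam (b :: c))
    (hN : RN lam b c) : RN lam a (b :: c) := by
  intro u₀ hu₀ X₀ hX₀
  by_cases hy : nx b c X₀ = 0
  · -- the next variable vanishes
    have hX1 : (X₀ : Sp c × ℂ).1 ≠ 0 := fun e => hX₀ (Prod.ext e hy : (X₀ : Sp c × ℂ) = 0)
    have h1 := hN u₀ hu₀ _ hX1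
    have h2 : RegAt ((PD ×ˢ (univ : Set ℂ)) ×ˢ (univ : Set ℂ))
        (fun (tb : ((ℝ × ℝ) × ℂ) × ℂ) (v : Sp c) =>
          Ls lam (pm lam tb.1).1 (b :: c) (pm lam tb.1).2 ((v, tb.2) : Sp c × ℂ))
        (((u₀, 0), 0), nx b c X₀) (X₀ : Sp c × ℂ).1 := by
      refine RegAt.param (s := PD ×ˢ (univ : Set ℂ))
        (φ := fun tb : ((ℝ × ℝ) × ℂ) × ℂ => (pm lam tb.1, tb.2))
        (F := fun (t : (ℝ × ℝ) × ℂ) (v : Sp c) =>
          Ls lam t.1.1 (b :: c) t.1.2 ((v, t.2) : Sp c × ℂ)) ?_ ?_ ?_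
      · exact (((continuous_pm lam).comp continuous_fst).prodMk
          continuous_snd).continuousWithinAt
      · exact fun tb htb => ⟨mapsTo_pm hlam htb.1, mem_univ _⟩
      · show RegAt (PD ×ˢ (univ : Set ℂ)) (fun (t : (ℝ × ℝ) × ℂ) (v : Sp c) =>
          Ls lam t.1.1 (b :: c) t.1.2 ((v, t.2) : Sp c × ℂ)) (pm lam ((u₀, 0), 0), nx b c X₀)
          (X₀ : Sp c × ℂ).1
        rw [pm_zero, hy]
        exact h1
    have h3 := RegAt.add_const h2 (fun tb : ((ℝ × ℝ) × ℂ) × ℂ => cpl lam tb.1.1.2 a tb.2 tb.1.2)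
    have h4 : RegAt ((PD ×ˢ (univ : Set ℂ)) ×ˢ (univ : Set ℂ))
        (fun (tb : ((ℝ × ℝ) × ℂ) × ℂ) (v : Sp c) =>
          Ls lam (pm lam tb.1).1 (b :: c) (pm lam tb.1).2 ((v, tb.2) : Sp c × ℂ) +
            cpl lam tb.1.1.2 a tb.2 tb.1.2)
        (((u₀, 0), 0), nx b c X₀) (X₀ : Sp c × ℂ).1 :=
      h3.congr ⟨univ, univ_mem, Eventually.of_forall fun tb v _ => add_comm _ _⟩
    exact RegAt.fst (E := Sp c) (E' := ℂ) (s := PD ×ˢ (univ : Set ℂ))
      (F := fun (t : (ℝ × ℝ) × ℂ) (X : Sp c × ℂ) =>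
        Ls lam (pm lam t).1 (b :: c) (pm lam t).2 X + cpl lam t.1.2 a X.2 t.2) h4
  · have h1 : RegAt (PD ×ˢ (univ : Set ℂ)) (fun (t : (ℝ × ℝ) × ℂ) (X : Sp (b :: c)) =>
        Ls lam (pm lam t).1 (b :: c) (pm lam t).2 X) ((u₀, 0), 0) X₀ := by
      refine RegAt.param (s := PD) (φ := pm lam)
        (F := fun (t : ℝ × ℝ) (p : Sp (b :: c)) => Ls lam t.1 (b :: c) t.2 p)
        (continuous_pm lam).continuousWithinAt (mapsTo_pm hlam) ?_
      rw [pm_zero]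
      exact hA u₀ hu₀ X₀ hX₀
    refine regAt_add_small (G := fun (t : (ℝ × ℝ) × ℂ) (X : Sp (b :: c)) =>
      cpl lam t.1.2 a (nx b c X) t.2) h1 fun ε hε => ?_
    obtain ⟨δ, hδ, hδ'⟩ := cpl_small hlam a hy hε
    have h0 : 0 < ‖nx b c X₀‖ := norm_pos_iff.mpr hy
    refine ⟨{X | ‖nx b c X₀‖ / 2 < ‖nx b c X‖}, ?_, ?_⟩
    · refine (continuous_nx b c).norm.continuousAt.eventually (lt_mem_nhds ?_)
      linarith
    · have h2 : Continuous fun t : (ℝ × ℝ) × ℂ => sc t.1.2 t.2 :=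
        continuous_sc.comp ((continuous_snd.comp continuous_fst).prodMk continuous_snd)
      have h3 : ∀ᶠ t : (ℝ × ℝ) × ℂ in 𝓝 ((u₀, 0), 0), sc t.1.2 t.2 < δ := by
        refine h2.continuousAt.eventually (gt_mem_nhds ?_)
        show sc 0 0 < δ
        rwa [sc_zero_left, norm_zero]
      filter_upwards [mem_nhdsWithin_of_mem_nhds h3] with t ht X _ Y hY
      refine (hδ' t.1.2 t.2 ht (nx b c X) (nx b c Y) hY).trans
        (mul_le_mul_of_nonneg_left ?_ hε.le)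
      exact norm_snd_le ((X : Sp c × ℂ) - (Y : Sp c × ℂ))

theorem xi_congr {σ σ' : ℝ} {z : ℂ} (h : sc σ z = sc σ' z) : xi σ z = xi σ' z := by
  rw [xi, xi, h]

theorem cpl_congr {lam σ σ' : ℝ} {a : ℕ} {y z : ℂ} (h : sc σ z = sc σ' z) :
    cpl lam σ a y z = cpl lam σ' a y z := by
  rw [cpl, cpl, xi_congr h, h]

/-- The induction step for `RA`. -/
theorem RA_cons {lam : ℝ} (hlam : 1 ≤ lam) {a : ℕ} (ha : a ≠ 0) (c : List ℕ)
    (hK : 8 * KL c ≤ lam) (hN : RN lam a c) : RA lam (a :: c) := by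
  intro u₀ hu₀ p₀ hp₀
  have hlam0 : 0 < lam := by linarith
  obtain ⟨X₀, z₀⟩ := (p₀ : Sp c × ℂ)
  by_cases hz : z₀ = 0
  · subst hz
    have hX : X₀ ≠ 0 := fun e => hp₀ (Prod.ext e rfl : ((X₀, 0) : Sp c × ℂ) = 0)
    exact RegAt.fst (E := Sp c) (E' := ℂ) (s := PD)
      (F := fun (t : ℝ × ℝ) (p : Sp c × ℂ) => Ls lam t.1 (a :: c) t.2 p) (hN u₀ hu₀ X₀ hX)
  · have hz' : 0 < ‖z₀‖ := norm_pos_iff.mpr hz
    have hsc : ∀ (σ : ℝ) (z : ℂ), σ < ‖z₀‖ / 2 → ‖z₀‖ / 2 < ‖z‖ → sc σ z = ‖z‖ :=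
      fun σ z h1 h2 => sc_of_le (h1.trans h2).le
    have hev : ∀ᶠ t : ℝ × ℝ in 𝓝[PD] (u₀, (0 : ℝ)), t.2 < ‖z₀‖ / 2 := by
      refine mem_nhdsWithin_of_mem_nhds ?_
      exact continuousAt_snd.eventually (gt_mem_nhds (show (0 : ℝ) < ‖z₀‖ / 2 by linarith))
    have hzU : {z : ℂ | ‖z₀‖ / 2 < ‖z‖} ∈ 𝓝 z₀ :=
      continuous_norm.continuousAt.eventually (lt_mem_nhds (by linarith))
    cases c with
    | nil =>
      have h1 : RegAt (PD ×ˢ (univ : Set (Sp []))) (fun (tb : (ℝ × ℝ) × Sp []) (z : ℂ) =>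
          Ls lam tb.1.1 [a] tb.1.2 ((tb.2, z) : Sp [] × ℂ)) ((u₀, 0), X₀) z₀ := by
        refine (single_reg ha hz (PD ×ˢ (univ : Set (Sp []))) ((u₀, 0), X₀)).congr
          ⟨{z : ℂ | ‖z₀‖ / 2 < ‖z‖}, hzU, ?_⟩
        have h2 : Tendsto Prod.fst (𝓝[PD ×ˢ (univ : Set (Sp []))] ((u₀, (0 : ℝ)), X₀))
            (𝓝[PD] (u₀, (0 : ℝ))) :=
          continuousWithinAt_fst.tendsto_nhdsWithin fun p hp => hp.1
        filter_upwards [h2.eventually hev] with t ht z hzU'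
        have h3 := hsc t.1.2 z ht hzU'
        have h4 : xi t.1.2 z = ph z := by
          rw [xi, h3, ph]
        show ((‖z‖ : ℝ) : ℂ) * ph z ^ a = (sc t.1.2 z : ℂ) * xi t.1.2 z ^ a
        rw [h3, h4]
      exact RegAt.snd (E := Sp []) (E' := ℂ) (s := PD)
        (F := fun (t : ℝ × ℝ) (p : Sp [] × ℂ) => Ls lam t.1 [a] t.2 p) h1
    | cons b c =>
      obtain ⟨A, hA1, hA2, U, hU, hreg⟩ := cpl_reg hlam0 ha (nx b c X₀) hz
      have hKn := KL_nonneg (b :: c)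
      let A1 : ℂ →L[ℝ] ℂ := (ContinuousLinearMap.fst ℝ ℂ ℂ).comp A
      let A2 : ℂ →L[ℝ] ℂ := (ContinuousLinearMap.snd ℝ ℂ ℂ).comp A
      let B : ℂ →L[ℝ] (Sp c × ℂ) × ℂ :=
        ((ContinuousLinearMap.inr ℝ (Sp c) ℂ).comp A1).prod A2
      have key : RegAt PD (fun (t : ℝ × ℝ) (p : (Sp c × ℂ) × ℂ) =>
          Ls lam t.1 (b :: c) (t.1 * (sc t.2 p.2 / lam)) p.1 + cpl lam t.2 a p.1.2 p.2)
          (u₀, 0) ((X₀ : Sp c × ℂ), z₀) := by
        refine ⟨1 / 2, by norm_num, by norm_num, B,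
          {p | (p.1.2, p.2) ∈ U ∧ ‖z₀‖ / 2 < ‖p.2‖}, ?_, ?_⟩
        · refine inter_mem ?_ ?_
          · have h1 : Continuous fun p : (Sp c × ℂ) × ℂ => (p.1.2, p.2) := by fun_prop
            exact h1.continuousAt.preimage_mem_nhds hU
          · have h1 : Continuous fun p : (Sp c × ℂ) × ℂ => p.2 := continuous_snd
            exact (h1.continuousAt (x := ((X₀, z₀) : (Sp c × ℂ) × ℂ))).preimage_mem_nhds hzU
        · filter_upwards [hev, self_mem_nhdsWithin] with t ht htP p hp c' hc'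
          obtain ⟨⟨X, y⟩, z⟩ := p
          have e1 : (((X, y), z) : (Sp c × ℂ) × ℂ) + B c' = ((X, y + A1 c'), z + A2 c') := by
            show ((X + 0, y + A1 c'), z + A2 c') = ((X, y + A1 c'), z + A2 c')
            rw [add_zero]
          rw [e1] at hc' ⊢
          have hs1 : sc t.2 z = ‖z‖ := hsc _ _ ht hp.2
          have hs2 : sc t.2 (z + A2 c') = ‖z + A2 c'‖ := hsc _ _ ht hc'.2
          have e2 := hreg (y, z) hp.1 c' hc'.1
          have e3 : cpl lam t.2 a y z = cpl lam 0 a y z :=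
            cpl_congr (hs1.trans (sc_zero_left z).symm)
          have e4 : cpl lam t.2 a (y + A1 c') (z + A2 c') = cpl lam 0 a (y + A1 c') (z + A2 c') :=
            cpl_congr (hs2.trans (sc_zero_left _).symm)
          have e5 := Ls_lipZ hlam htP.1.1 htP.1.2 b c (t.1 * (sc t.2 (z + A2 c') / lam)) X
            (y + A1 c') y
          have e6 := Ls_lipS hlam htP.1.1 htP.1.2 (b :: c)
            (σ := t.1 * (sc t.2 (z + A2 c') / lam)) (σ' := t.1 * (sc t.2 z / lam))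
            ((X, y) : Sp c × ℂ)
          have e7 : |t.1 * (sc t.2 (z + A2 c') / lam) - t.1 * (sc t.2 z / lam)| ≤
              lam⁻¹ * ‖c'‖ := by
            rw [← mul_sub, ← sub_div, abs_mul, abs_of_nonneg htP.1.1, abs_div, abs_of_pos hlam0]
            refine (mul_le_of_le_one_left (by positivity) htP.1.2).trans ?_
            rw [div_eq_inv_mul]
            refine mul_le_mul_of_nonneg_left ?_ (inv_nonneg.mpr hlam0.le)
            have h1 := abs_sc_sub t.2 t.2 (z + A2 c') z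
            rw [sub_self, abs_zero, max_eq_left (norm_nonneg _), add_sub_cancel_left] at h1
            exact h1.trans (hA2 c')
          have e8 : ‖(y + A1 c') - y‖ ≤ lam⁻¹ * ‖c'‖ := by
            rw [add_sub_cancel_left]
            exact hA1 c'
          have hKl : KL (b :: c) * lam⁻¹ ≤ 1 / 8 := by
            rw [← div_eq_mul_inv, div_le_iff₀ hlam0]
            linarith
          have e9 : KL (b :: c) * (lam⁻¹ * ‖c'‖) ≤ 1 / 8 * ‖c'‖ := by
            rw [← mul_assoc]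
            exact mul_le_mul_of_nonneg_right hKl (norm_nonneg _)
          have e10 := e5.trans ((mul_le_mul_of_nonneg_left e8 hKn).trans e9)
          have e11 := e6.trans ((mul_le_mul_of_nonneg_left e7 hKn).trans e9)
          show ‖Ls lam t.1 (b :: c) (t.1 * (sc t.2 (z + A2 c') / lam))
              ((X, y + A1 c') : Sp c × ℂ) + cpl lam t.2 a (y + A1 c') (z + A2 c') -
            (Ls lam t.1 (b :: c) (t.1 * (sc t.2 z / lam)) ((X, y) : Sp c × ℂ) +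
              cpl lam t.2 a y z) - c'‖ ≤ 1 / 2 * ‖c'‖
          have e12 : Ls lam t.1 (b :: c) (t.1 * (sc t.2 (z + A2 c') / lam))
              ((X, y + A1 c') : Sp c × ℂ) + cpl lam t.2 a (y + A1 c') (z + A2 c') -
            (Ls lam t.1 (b :: c) (t.1 * (sc t.2 z / lam)) ((X, y) : Sp c × ℂ) +
              cpl lam t.2 a y z) - c' =
            (Ls lam t.1 (b :: c) (t.1 * (sc t.2 (z + A2 c') / lam))
              ((X, y + A1 c') : Sp c × ℂ) -
              Ls lam t.1 (b :: c) (t.1 * (sc t.2 (z + A2 c') / lam)) ((X, y) : Sp c × ℂ)) +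
            (Ls lam t.1 (b :: c) (t.1 * (sc t.2 (z + A2 c') / lam)) ((X, y) : Sp c × ℂ) -
              Ls lam t.1 (b :: c) (t.1 * (sc t.2 z / lam)) ((X, y) : Sp c × ℂ)) +
            (cpl lam 0 a (y + A1 c') (z + A2 c') - cpl lam 0 a y z - c') := by
            rw [e3, e4]; ring
          rw [e12]
          have e2' : ‖cpl lam 0 a (y + A1 c') (z + A2 c') - cpl lam 0 a y z - c'‖ ≤
              1 / 4 * ‖c'‖ := e2
          refine (norm_add_le _ _).trans ?_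
          refine (add_le_add ((norm_add_le _ _).trans (add_le_add e10 e11)) e2').trans ?_
          linarith
      exact key

/-- Regularity of the local scale functions. -/
theorem RA_RN {lam : ℝ} (hlam : 1 ≤ lam) {c : List ℕ} (hc : ∀ a ∈ c, 2 ≤ a)
    (hK : 8 * KL c ≤ lam) : RA lam c ∧ ∀ a, RN lam a c := by
  have hlam0 : 0 < lam := by linarith
  induction c with
  | nil =>
    refine ⟨fun u₀ _ p₀ hp₀ => ?_, RN_nil lam⟩
    exact absurd (@Subsingleton.elim (EuclideanSpace ℂ (Fin 0)) _ p₀ 0) hp₀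
  | cons b c ih =>
    have hb : b ≠ 0 := by
      have := hc b List.mem_cons_self
      omega
    have hKc : 8 * KL c ≤ lam := by
      rw [KL_cons] at hK
      have : (0 : ℝ) ≤ b := Nat.cast_nonneg b
      linarith
    obtain ⟨_, h2⟩ := ih (fun a ha => hc a (List.mem_cons_of_mem b ha)) hKc
    have h3 := RA_cons hlam hb c hKc (h2 b)
    exact ⟨h3, fun a => RN_cons hlam0 a b c h3 (h2 b)⟩

/-- The path from the local scale function (`u = 1`) to the link chain (`u = 0`). -/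
theorem hFam_Ls {lam : ℝ} (hlam : 1 ≤ lam) {c : List ℕ} (hc : ∀ a ∈ c, 2 ≤ a)
    (hK : 8 * KL c ≤ lam) : HFam (Icc (0 : ℝ) 1) (fun u => Ls lam u c 0) where
  cont := by
    have h1 : Continuous fun q : ℝ × Sp c => ((q.1, (0 : ℝ)), q.2) := by fun_prop
    exact ((continuous_Ls (by linarith) c).comp h1).continuousOn
  hom := fun u _ r hr x => by
    have h1 := Ls_smul lam u hr c 0 x
    rwa [mul_zero] at h1
  reg := fun u₀ hu₀ x hx _ => by
    refine RegAt.param (s := PD) (φ := fun u : ℝ => (u, (0 : ℝ)))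
      (F := fun (t : ℝ × ℝ) (p : Sp c) => Ls lam t.1 c t.2 p) ?_ ?_
      ((RA_RN hlam hc hK).1 u₀ hu₀ x hx)
    · exact (continuous_id.prodMk continuous_const).continuousWithinAt
    · exact fun u hu => ⟨hu, Set.mem_Ici.mpr le_rfl⟩

theorem Ls_zero {lam : ℝ} (hlam : 0 < lam) (c : List ℕ) (p : Sp c) :
    Ls lam 0 c 0 p = Fl lam c p := by
  induction c with
  | nil => rfl
  | cons a c ih =>
    obtain ⟨X, z⟩ := (p : Sp c × ℂ)
    cases c with
    | nil =>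
      show (sc 0 z : ℂ) * xi 0 z ^ a = ((‖z‖ : ℝ) : ℂ) * ph z ^ a
      rw [sc_zero_left, xi_zero_left]
    | cons b c =>
      show Ls lam 0 (b :: c) (0 * (sc 0 z / lam)) X + cpl lam 0 a (X : Sp c × ℂ).2 z =
        Fl lam (b :: c) X + lk lam a (X : Sp c × ℂ).2 z
      rw [zero_mul, ih, cpl_zero_lk hlam]

/-- **The path part of block P0.** -/
theorem hEqv_Ls_Fl {lam : ℝ} (hlam : 1 ≤ lam) {c : List ℕ} (hc : ∀ a ∈ c, 2 ≤ a)
    (hK : 8 * KL c ≤ lam) : HEqv (Ls lam 1 c 0) (Fl lam c) := by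
  have h1 := HEqv.of_path (hFam_Ls hlam hc hK)
  have h2 : Ls lam 0 c 0 = Fl lam c := funext (Ls_zero (by linarith) c)
  rw [← h2]
  exact h1.symm

end Vale.Agent.P268.T.P0
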