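import Vale.Agent.P268.T.H548.Defs
import Vale.Agent.P268.T.ChainCrit

/-!
# P268, topological half, block P0: local scales

For a chain `a :: c` with head variable `z` (last factor of `Sp (a :: c) = Sp c × ℂ`) and an
external scale `σ ≥ 0` the scale of the head variable is `sc σ z = max ‖z‖ σ`; the external scale
passed to the rest of the chain is `sc σ z / lam`.  In the coordinates `Ph` every monomial of the
chain polynomial is `sc * xi ^ a * xi'`, with `xi`, `xi'` in the unit disc.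
-/

set_option linter.unusedSectionVars false

namespace Vale.Agent.P268.T

open Set Filter Topology Vale.Agent.P268.Z

/-- The local scale. -/
noncomputable def sc (σ : ℝ) (z : ℂ) : ℝ := max ‖z‖ σ

/-- The coordinate relative to the local scale (in the closed unit disc). -/
noncomputable def xi (σ : ℝ) (z : ℂ) : ℂ := z / (sc σ z : ℂ)

/-- The modulus of the head variable (true coordinate) at local scale. -/
noncomputable def Sf (lam : ℝ) : ∀ c : List ℕ, ℝ → Sp c → ℝ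
  | [], _, _ => 1
  | a :: c, σ, p => (sc σ p.2 / Sf lam c (sc σ p.2 / lam) p.1) ^ ((a : ℝ)⁻¹)

/-- The same modulus as a function of the true coordinates. -/
noncomputable def Sh (lam : ℝ) : ∀ c : List ℕ, ℝ → Sp c → ℝ
  | [], _, _ => 1
  | a :: c, σ, q => max ‖q.2‖ ((σ / Sh lam c (σ / lam) q.1) ^ ((a : ℝ)⁻¹))

/-- From local scale coordinates to true coordinates. -/
noncomputable def Ph (lam : ℝ) : ∀ c : List ℕ, ℝ → Sp c → Sp c
  | [], _, p => p
  | a :: c, σ, p => (Ph lam c (sc σ p.2 / lam) p.1, (Sf lam (a :: c) σ p : ℂ) * xi σ p.2)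

/-- The coupling of the head variable `z` with the next variable `y`, external scale `σ`. -/
noncomputable def cpl (lam σ : ℝ) (a : ℕ) (y z : ℂ) : ℂ :=
  (sc σ z : ℂ) * xi σ z ^ a * xi (sc σ z / lam) y

/-- The local scale function, with the external scales multiplied by `u`. -/
noncomputable def Ls (lam u : ℝ) : ∀ c : List ℕ, ℝ → Sp c → ℂ
  | [], _, _ => 0
  | [a], σ, p => (sc σ p.2 : ℂ) * xi σ p.2 ^ a
  | a :: b :: c, σ, p => Ls lam u (b :: c) (u * (sc σ p.2 / lam)) p.1 + cpl lam σ a p.1.2 p.2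

theorem Sf_nil (lam σ : ℝ) (p : Sp []) : Sf lam [] σ p = 1 := rfl

theorem Sf_cons (lam : ℝ) (a : ℕ) (c : List ℕ) (σ : ℝ) (p : Sp c × ℂ) :
    Sf lam (a :: c) σ p = (sc σ p.2 / Sf lam c (sc σ p.2 / lam) p.1) ^ ((a : ℝ)⁻¹) := rfl

theorem Sh_nil (lam σ : ℝ) (p : Sp []) : Sh lam [] σ p = 1 := rfl

theorem Sh_cons (lam : ℝ) (a : ℕ) (c : List ℕ) (σ : ℝ) (q : Sp c × ℂ) :
    Sh lam (a :: c) σ q = max ‖q.2‖ ((σ / Sh lam c (σ / lam) q.1) ^ ((a : ℝ)⁻¹)) := rfl

theorem Ph_nil (lam σ : ℝ) (p : Sp []) : Ph lam [] σ p = p := rfl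

theorem Ph_cons (lam : ℝ) (a : ℕ) (c : List ℕ) (σ : ℝ) (p : Sp c × ℂ) :
    Ph lam (a :: c) σ p =
      ((Ph lam c (sc σ p.2 / lam) p.1, (Sf lam (a :: c) σ p : ℂ) * xi σ p.2) : Sp c × ℂ) := rfl

theorem Ls_nil (lam u σ : ℝ) (p : Sp []) : Ls lam u [] σ p = 0 := rfl

theorem Ls_single (lam u : ℝ) (a : ℕ) (σ : ℝ) (p : Sp [] × ℂ) :
    Ls lam u [a] σ p = (sc σ p.2 : ℂ) * xi σ p.2 ^ a := rfl

theorem Ls_cons (lam u : ℝ) (a b : ℕ) (c : List ℕ) (σ : ℝ) (p : (Sp c × ℂ) × ℂ) :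
    Ls lam u (a :: b :: c) σ p =
      Ls lam u (b :: c) (u * (sc σ p.2 / lam)) p.1 + cpl lam σ a p.1.2 p.2 := rfl

/-! ### Elementary facts -/

theorem sc_nonneg {σ : ℝ} (z : ℂ) : 0 ≤ sc σ z := le_max_of_le_left (norm_nonneg z)

theorem norm_le_sc (σ : ℝ) (z : ℂ) : ‖z‖ ≤ sc σ z := le_max_left _ _

theorem le_sc (σ : ℝ) (z : ℂ) : σ ≤ sc σ z := le_max_right _ _

theorem sc_pos {σ : ℝ} (hσ : 0 < σ) (z : ℂ) : 0 < sc σ z := hσ.trans_le (le_sc σ z)

theorem sc_pos' {σ : ℝ} {z : ℂ} (hz : z ≠ 0) : 0 < sc σ z :=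
  (norm_pos_iff.mpr hz).trans_le (norm_le_sc σ z)

theorem sc_eq_zero {σ : ℝ} (hσ : 0 ≤ σ) {z : ℂ} (h : sc σ z = 0) : σ = 0 ∧ z = 0 := by
  have h1 := norm_le_sc σ z
  have h2 := le_sc σ z
  rw [h] at h1 h2
  exact ⟨le_antisymm h2 hσ, norm_le_zero_iff.mp h1⟩

theorem sc_zero_left (z : ℂ) : sc 0 z = ‖z‖ := max_eq_left (norm_nonneg z)

theorem sc_of_le {σ : ℝ} {z : ℂ} (h : σ ≤ ‖z‖) : sc σ z = ‖z‖ := max_eq_left h

theorem sc_of_ge {σ : ℝ} {z : ℂ} (h : ‖z‖ ≤ σ) : sc σ z = σ := max_eq_right h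

theorem norm_xi (σ : ℝ) (z : ℂ) : ‖xi σ z‖ = ‖z‖ / sc σ z := by
  rw [xi, norm_div, Complex.norm_real, Real.norm_eq_abs, abs_of_nonneg (sc_nonneg z)]

theorem norm_xi_le (σ : ℝ) (z : ℂ) : ‖xi σ z‖ ≤ 1 := by
  rw [norm_xi]
  exact div_le_one_of_le₀ (norm_le_sc σ z) (sc_nonneg z)

theorem xi_zero_right (σ : ℝ) : xi σ 0 = 0 := zero_div _

theorem xi_zero_left (z : ℂ) : xi 0 z = ph z := by
  rw [xi, sc_zero_left, ph]

theorem Sf_nonneg {lam : ℝ} (c : List ℕ) (σ : ℝ) (p : Sp c) : 0 ≤ Sf lam c σ p := by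
  induction c generalizing σ with
  | nil => exact zero_le_one
  | cons a c ih => exact Real.rpow_nonneg (div_nonneg (sc_nonneg _) (ih _ _)) _

theorem Sf_pos {lam : ℝ} (hlam : 0 < lam) (c : List ℕ) {σ : ℝ} (hσ : 0 < σ) (p : Sp c) :
    0 < Sf lam c σ p := by
  induction c generalizing σ with
  | nil => exact zero_lt_one
  | cons a c ih =>
    exact Real.rpow_pos_of_pos (div_pos (sc_pos hσ _) (ih (div_pos (sc_pos hσ _) hlam) _)) _

theorem Sh_nonneg {lam : ℝ} (c : List ℕ) (σ : ℝ) (p : Sp c) : 0 ≤ Sh lam c σ p := by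
  cases c with
  | nil => exact zero_le_one
  | cons a c => exact le_max_of_le_left (norm_nonneg _)

theorem Sh_pos {lam : ℝ} (hlam : 0 < lam) (c : List ℕ) {σ : ℝ} (hσ : 0 < σ) (p : Sp c) :
    0 < Sh lam c σ p := by
  induction c generalizing σ with
  | nil => exact zero_lt_one
  | cons a c ih =>
    exact lt_max_of_lt_right (Real.rpow_pos_of_pos (div_pos hσ (ih (div_pos hσ hlam) _)) _)

theorem Sf_zero_zero {lam : ℝ} {a : ℕ} (ha : a ≠ 0) (c : List ℕ) (X : Sp c) :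
    Sf lam (a :: c) 0 ((X, 0) : Sp c × ℂ) = 0 := by
  rw [Sf_cons]
  have h1 : sc 0 (((X, 0) : Sp c × ℂ).2) = 0 := by
    show sc 0 0 = 0
    rw [sc_zero_left, norm_zero]
  rw [h1, zero_div, Real.zero_rpow]
  exact inv_ne_zero (by exact_mod_cast ha)

theorem Sf_cons_pow {lam : ℝ} {a : ℕ} (ha : a ≠ 0) (c : List ℕ) (σ : ℝ) (p : Sp c × ℂ) :
    Sf lam (a :: c) σ p ^ a = sc σ p.2 / Sf lam c (sc σ p.2 / lam) p.1 := by
  rw [Sf_cons]
  exact Real.rpow_inv_natCast_pow (div_nonneg (sc_nonneg _) (Sf_nonneg _ _ _)) ha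

/-! ### True coordinates on `Sp c` -/

/-- Splitting off the head coordinate. -/
noncomputable def cnsH (a : ℕ) (c : List ℕ) :
    (Fin c.length → ℂ) × ℂ ≃ₜ (Fin (a :: c).length → ℂ) where
  toFun p := cns a c p.2 p.1
  invFun z := (tl a c z, hd (a :: c) z)
  left_inv p := by
    show (tl a c (cns a c p.2 p.1), hd (a :: c) (cns a c p.2 p.1)) = p
    rw [tl_cns, hd_cns]
  right_inv z := cns_hd_tl a c z
  continuous_toFun := by
    refine continuous_pi fun j => ?_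
    refine Fin.cases (motive := fun j : Fin (c.length + 1) =>
      Continuous fun p : (Fin c.length → ℂ) × ℂ => cns a c p.2 p.1 j) ?_ (fun i => ?_)
      (j : Fin (c.length + 1))
    · exact continuous_snd
    · exact (continuous_apply i).comp continuous_fst
  continuous_invFun := by
    refine (continuous_pi fun i => ?_).prodMk ?_
    · exact continuous_apply (A := fun _ : Fin (c.length + 1) => ℂ) (Fin.succ i)
    · exact (contDiff_hd (a :: c)).continuous

/-- The homeomorphism between `Sp c` and `ℂ ^ c.length`. -/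
noncomputable def toFin : ∀ c : List ℕ, Sp c ≃ₜ (Fin c.length → ℂ)
  | [] => (EuclideanSpace.equiv (Fin 0) ℂ).toHomeomorph
  | a :: c => ((toFin c).prodCongr (Homeomorph.refl ℂ)).trans (cnsH a c)

theorem toFin_cons (a : ℕ) (c : List ℕ) (q : Sp c × ℂ) :
    toFin (a :: c) q = cns a c q.2 (toFin c q.1) := rfl

theorem hd_toFin_cons (a : ℕ) (c : List ℕ) (q : Sp c × ℂ) : hd (a :: c) (toFin (a :: c) q) = q.2 := by
  rw [toFin_cons, hd_cns]

/-- **The chain polynomial in local scale coordinates.** -/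
theorem chainFun_Ph {lam : ℝ} (hlam : 0 < lam) {c : List ℕ} (hc : ∀ a ∈ c, 2 ≤ a) {σ : ℝ}
    (hσ : 0 ≤ σ) (p : Sp c) : chainFun c (toFin c (Ph lam c σ p)) = Ls lam 1 c σ p := by
  induction c generalizing σ with
  | nil =>
    rw [Ls_nil, chainFun]
    exact Finset.sum_eq_zero fun j _ => absurd j.2 (Nat.not_lt_zero _)
  | cons a c ih =>
    obtain ⟨X, z⟩ := (p : Sp c × ℂ)
    have ha : a ≠ 0 := by
      have := hc a List.mem_cons_self
      omega
    have hc' : ∀ b ∈ c, 2 ≤ b := fun b hb => hc b (List.mem_cons_of_mem a hb)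
    have h1 := ih hc' (σ := sc σ z / lam) (div_nonneg (sc_nonneg _) hlam.le) X
    have h0 : sc σ z = 0 → xi σ z ^ a = 0 := by
      intro h
      obtain ⟨-, hz⟩ := sc_eq_zero hσ h
      rw [hz, xi_zero_right, zero_pow ha]
    rw [Ph_cons, toFin_cons, chainFun_cns]
    show ((Sf lam (a :: c) σ ((X, z) : Sp c × ℂ) : ℂ) * xi σ z) ^ a * hd c (toFin c (Ph lam c
      (sc σ z / lam) X)) + chainFun c (toFin c (Ph lam c (sc σ z / lam) X)) = _
    rw [mul_pow, ← Complex.ofReal_pow, Sf_cons_pow ha, h1]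
    show ((sc σ z / Sf lam c (sc σ z / lam) X : ℝ) : ℂ) * xi σ z ^ a * hd c (toFin c (Ph lam c
      (sc σ z / lam) X)) + Ls lam 1 c (sc σ z / lam) X = _
    cases c with
    | nil =>
      rw [Ls_single, Ls_nil, Sf_nil, div_one, hd_nil, mul_one, add_zero]
    | cons b c =>
      have e1 : Ls lam 1 (a :: b :: c) σ ((X, z) : Sp (b :: c) × ℂ) =
        Ls lam 1 (b :: c) (1 * (sc σ z / lam)) X +
          (sc σ z : ℂ) * xi σ z ^ a * xi (sc σ z / lam) (X : Sp c × ℂ).2 := rfl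
      have e2 : hd (b :: c) (toFin (b :: c) (Ph lam (b :: c) (sc σ z / lam) X)) =
        (Sf lam (b :: c) (sc σ z / lam) X : ℂ) * xi (sc σ z / lam) (X : Sp c × ℂ).2 :=
        hd_toFin_cons b c _
      rw [e2, e1, one_mul, add_comm]
      congr 1
      rcases (sc_nonneg (σ := σ) z).eq_or_lt with h | h
      · rw [h0 h.symm]
        simp
      · have h2 : (Sf lam (b :: c) (sc σ z / lam) X : ℂ) ≠ 0 := by
          have := (Sf_pos hlam (b :: c) (div_pos h hlam) X).ne'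
          exact_mod_cast this
        push_cast
        field_simp

end Vale.Agent.P268.T
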